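import Vale.Agent.P082.Core
import Mathlib.Analysis.Normed.Module.RieszLemma

/-!
# P096: linear maps close to the identity become multiplicative
-/

namespace Vale.Agent.P096.Linear

open Vale.Agent.P082 (Alg Cochain hochDiff)

universe u

variable {H : Type u} [NormedAddCommGroup H] [InnerProductSpace ℂ H] [CompleteSpace H]
variable {M N : VonNeumannAlgebra H}

/-- Every cocycle of degree `n + 1` has a primitive with the bound `K`. -/
def PrimBound (M : VonNeumannAlgebra H) (n : ℕ) (K : ℝ) : Prop :=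
  ∀ f : Cochain M (n + 1), (∀ a, hochDiff f a = 0) →
    ∃ g : Cochain M n, (∀ a, f a = hochDiff g a) ∧ ‖g‖ ≤ K * ‖f‖

/-- `L` moves every element by at most `r` times its norm. -/
def NearId (L : Alg M →L[ℂ] Alg N) (r : ℝ) : Prop :=
  ∀ x, ‖(L x : H →L[ℂ] H) - (x : H →L[ℂ] H)‖ ≤ r * ‖x‖

/-- `L` commutes with the adjoint. -/
def StarLin (L : Alg M →L[ℂ] Alg N) : Prop := ∀ x, L (star x) = star (L x)

/-- `L` is multiplicative up to `d`. -/
def Defect (L : Alg M →L[ℂ] Alg N) (d : ℝ) : Prop :=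
  ∀ x y, ‖L (x * y) - L x * L y‖ ≤ d * (‖x‖ * ‖y‖)

/-- A cochain of degree two. -/
noncomputable def mk2 (φ : Alg M → Alg M → Alg M)
    (h1 : ∀ x x' y, φ (x + x') y = φ x y + φ x' y)
    (h2 : ∀ (c : ℂ) x y, φ (c • x) y = c • φ x y)
    (h3 : ∀ x y y', φ x (y + y') = φ x y + φ x y')
    (h4 : ∀ (c : ℂ) x y, φ x (c • y) = c • φ x y)
    (C : ℝ) (hC : ∀ x y, ‖φ x y‖ ≤ C * (‖x‖ * ‖y‖)) : Cochain M 2 :=
  MultilinearMap.mkContinuous
    { toFun := fun a => φ (a 0) (a 1)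
      map_update_add' := fun {inst} a i x y => by
        obtain rfl : inst = instDecidableEqFin 2 := Subsingleton.elim _ _
        fin_cases i <;> simp [h1, h3]
      map_update_smul' := fun {inst} a i c x => by
        obtain rfl : inst = instDecidableEqFin 2 := Subsingleton.elim _ _
        fin_cases i <;> simp [h2, h4] }
    C fun a => by rw [Fin.prod_univ_two]; exact hC _ _

/-- A cochain of degree three. -/
noncomputable def mk3 (φ : Alg M → Alg M → Alg M → Alg M)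
    (h1 : ∀ x x' y z, φ (x + x') y z = φ x y z + φ x' y z)
    (h2 : ∀ (c : ℂ) x y z, φ (c • x) y z = c • φ x y z)
    (h3 : ∀ x y y' z, φ x (y + y') z = φ x y z + φ x y' z)
    (h4 : ∀ (c : ℂ) x y z, φ x (c • y) z = c • φ x y z)
    (h5 : ∀ x y z z', φ x y (z + z') = φ x y z + φ x y z')
    (h6 : ∀ (c : ℂ) x y z, φ x y (c • z) = c • φ x y z)
    (C : ℝ) (hC : ∀ x y z, ‖φ x y z‖ ≤ C * (‖x‖ * ‖y‖ * ‖z‖)) : Cochain M 3 :=
  MultilinearMap.mkContinuous
    { toFun := fun a => φ (a 0) (a 1) (a 2)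
      map_update_add' := fun {inst} a i x y => by
        obtain rfl : inst = instDecidableEqFin 3 := Subsingleton.elim _ _
        fin_cases i <;> simp [h1, h3, h5]
      map_update_smul' := fun {inst} a i c x => by
        obtain rfl : inst = instDecidableEqFin 3 := Subsingleton.elim _ _
        fin_cases i <;> simp [h2, h4, h6] }
    C fun a => by rw [Fin.prod_univ_three]; exact hC _ _ _

theorem hochDiff_one (g : Cochain M 1) (a : Fin 2 → Alg M) :
    hochDiff g a = a 0 * g ![a 1] - g ![a 0 * a 1] + g ![a 0] * a 1 := by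
  have e1 : Fin.tail a = ![a 1] := by funext i; fin_cases i; rfl
  have e2 : Fin.init a = ![a 0] := by funext i; fin_cases i; rfl
  have e3 : Fin.contractNth (Fin.castSucc 0) (· * ·) a = ![a 0 * a 1] := by
    funext i; fin_cases i; simp [Fin.contractNth]
  simp only [hochDiff, Fin.sum_univ_one, e1, e2, e3, Fin.val_zero]
  simp [Fin.last]
  abel

theorem hochDiff_two (g : Cochain M 2) (a : Fin 3 → Alg M) :
    hochDiff g a = a 0 * g ![a 1, a 2] - g ![a 0 * a 1, a 2] + g ![a 0, a 1 * a 2]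
      - g ![a 0, a 1] * a 2 := by
  have e1 : Fin.tail a = ![a 1, a 2] := by funext i; fin_cases i <;> rfl
  have e2 : Fin.init a = ![a 0, a 1] := by funext i; fin_cases i <;> rfl
  have e3 : Fin.contractNth (Fin.castSucc 0) (· * ·) a = ![a 0 * a 1, a 2] := by
    funext i; fin_cases i <;> simp [Fin.contractNth]
  have e4 : Fin.contractNth (Fin.castSucc 1) (· * ·) a = ![a 0, a 1 * a 2] := by
    funext i; fin_cases i <;> simp [Fin.contractNth]
  simp only [hochDiff, Fin.sum_univ_two, e1, e2, e3, e4, Fin.val_zero, Fin.val_one]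
  simp [Fin.last]
  norm_num
  abel

theorem hochDiff_three (g : Cochain M 3) (a : Fin 4 → Alg M) :
    hochDiff g a = a 0 * g ![a 1, a 2, a 3] - g ![a 0 * a 1, a 2, a 3]
      + g ![a 0, a 1 * a 2, a 3] - g ![a 0, a 1, a 2 * a 3] + g ![a 0, a 1, a 2] * a 3 := by
  have e1 : Fin.tail a = ![a 1, a 2, a 3] := by funext i; fin_cases i <;> rfl
  have e2 : Fin.init a = ![a 0, a 1, a 2] := by funext i; fin_cases i <;> rfl
  have e3 : Fin.contractNth (Fin.castSucc 0) (· * ·) a = ![a 0 * a 1, a 2, a 3] := by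
    funext i; fin_cases i <;> simp [Fin.contractNth]
  have e4 : Fin.contractNth (Fin.castSucc 1) (· * ·) a = ![a 0, a 1 * a 2, a 3] := by
    funext i; fin_cases i <;> simp [Fin.contractNth]
  have e5 : Fin.contractNth (Fin.castSucc 2) (· * ·) a = ![a 0, a 1, a 2 * a 3] := by
    funext i; fin_cases i <;> simp [Fin.contractNth]
  simp only [hochDiff, Fin.sum_univ_three, e1, e2, e3, e4, e5, Fin.val_zero, Fin.val_one,
    Fin.val_two]
  simp [Fin.last]
  norm_num
  abel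

theorem norm_le_two {L : Alg M →L[ℂ] Alg N} {r : ℝ} (hL : NearId L r) (hr : r ≤ 1 / 4)
    (x : Alg M) : ‖L x‖ ≤ 2 * ‖x‖ ∧ ‖x‖ ≤ 2 * ‖L x‖ := by
  have h := hL x
  have h1 := norm_sub_norm_le (L x : H →L[ℂ] H) (x : H →L[ℂ] H)
  have h2 := norm_sub_norm_le (x : H →L[ℂ] H) (L x : H →L[ℂ] H)
  rw [norm_sub_rev] at h2
  have := mul_le_mul_of_nonneg_right hr (norm_nonneg x)
  have := norm_nonneg x
  have := norm_nonneg (L x)
  change ‖(L x : H →L[ℂ] H)‖ ≤ 2 * ‖(x : H →L[ℂ] H)‖ ∧ ‖(x : H →L[ℂ] H)‖ ≤ 2 * ‖(L x : H →L[ℂ] H)‖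
  have e1 : ‖x‖ = ‖(x : H →L[ℂ] H)‖ := rfl
  constructor <;> linarith [norm_nonneg (L x : H →L[ℂ] H)]

theorem injective_of_near {L : Alg M →L[ℂ] Alg N} {r : ℝ} (hL : NearId L r) (hr : r ≤ 1 / 4) :
    Function.Injective L := fun x y hxy => sub_eq_zero.1 <| norm_le_zero_iff.1 <| by
  have := (norm_le_two hL hr (x - y)).2
  rwa [map_sub, hxy, sub_self, norm_zero, mul_zero] at this

/-- A map near the identity onto an algebra near the source is onto. -/
theorem surjective_of_near {L : Alg M →L[ℂ] Alg N} {r γ : ℝ} (hL : NearId L r)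
    (hr : r ≤ 1 / 4) (hγ : γ ≤ 1 / 8)
    (hN : ∀ y : Alg N, ∃ x : Alg M, ‖(x : H →L[ℂ] H) - (y : H →L[ℂ] H)‖ ≤ γ * ‖y‖) :
    Function.Surjective L := by
  by_contra hs
  simp only [Function.Surjective, not_forall, not_exists] at hs
  obtain ⟨z, hz⟩ := hs
  have hcl : IsClosed ((L.toLinearMap.range : Submodule ℂ (Alg N)) : Set (Alg N)) := by
    have hA : AntilipschitzWith 2 L :=
      L.antilipschitz_of_bound fun x => by simpa using (norm_le_two hL hr x).2
    exact hA.isClosed_range L.uniformContinuous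
  obtain ⟨y, hy, hfar⟩ := riesz_lemma hcl ⟨z, fun ⟨x, hx⟩ => hz x hx⟩
    (r := 1 / 2) (by norm_num)
  obtain ⟨x, hx⟩ := hN y
  have h1 := hfar (L x) ⟨x, rfl⟩
  have h2 : ‖y - L x‖ ≤ ‖(x : H →L[ℂ] H) - (y : H →L[ℂ] H)‖
      + ‖(L x : H →L[ℂ] H) - (x : H →L[ℂ] H)‖ := by
    show ‖(y : H →L[ℂ] H) - (L x : H →L[ℂ] H)‖ ≤ _
    rw [norm_sub_rev (x : H →L[ℂ] H) (y : H →L[ℂ] H),
      norm_sub_rev (L x : H →L[ℂ] H) (x : H →L[ℂ] H)]
    exact norm_sub_le_norm_sub_add_norm_sub _ _ _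
  have h3 := hL x
  have h4 : ‖(x : H →L[ℂ] H)‖ ≤ ‖(y : H →L[ℂ] H)‖ + ‖(x : H →L[ℂ] H) - (y : H →L[ℂ] H)‖ :=
    norm_le_norm_add_norm_sub' _ _ 
  have hy0 : 0 < ‖y‖ := norm_pos_iff.2 fun h => hy (by rw [h]; exact Submodule.zero_mem _)
  have h5 : γ * ‖y‖ ≤ 1 / 8 * ‖y‖ := mul_le_mul_of_nonneg_right hγ hy0.le
  have h6 : r * ‖x‖ ≤ 1 / 4 * ‖x‖ := mul_le_mul_of_nonneg_right hr (norm_nonneg _)
  have e1 : ‖x‖ = ‖(x : H →L[ℂ] H)‖ := rfl
  have e2 : ‖y‖ = ‖(y : H →L[ℂ] H)‖ := rfl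
  linarith

/-- The adjoint map. -/
noncomputable def sharp (L : Alg M →L[ℂ] Alg N) : Alg M →L[ℂ] Alg N :=
  LinearMap.mkContinuous
    { toFun := fun x => star (L (star x))
      map_add' := fun x y => by simp
      map_smul' := fun c x => by simp }
    ‖L‖ fun x => by
      show ‖star (L (star x))‖ ≤ _
      rw [norm_star]
      exact (L.le_opNorm _).trans_eq (by rw [norm_star])

theorem sharp_apply (L : Alg M →L[ℂ] Alg N) (x : Alg M) : sharp L x = star (L (star x)) := rfl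

/-- The average with the adjoint map. -/
noncomputable def symm (L : Alg M →L[ℂ] Alg N) : Alg M →L[ℂ] Alg N :=
  (2⁻¹ : ℂ) • (L + sharp L)

theorem symm_apply (L : Alg M →L[ℂ] Alg N) (x : Alg M) :
    symm L x = (2⁻¹ : ℂ) • (L x + star (L (star x))) := rfl

theorem starLin_symm (L : Alg M →L[ℂ] Alg N) : StarLin (symm L) := fun x => by
  simp [symm_apply, star_smul, add_comm]

theorem norm_symm_sub_le (L L₀ : Alg M →L[ℂ] Alg N) (h₀ : StarLin L₀) {e : ℝ}
    (h : ∀ x, ‖L x - L₀ x‖ ≤ e * ‖x‖) (x : Alg M) : ‖symm L x - L₀ x‖ ≤ e * ‖x‖ := by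
  have e1 : symm L x - L₀ x = (2⁻¹ : ℂ) • ((L x - L₀ x) + star (L (star x) - L₀ (star x))) := by
    rw [symm_apply, star_sub, h₀, star_star]
    module
  have h1 := h x
  have h2 := h (star x)
  rw [norm_star] at h2
  rw [e1, norm_smul]
  refine le_trans (mul_le_mul_of_nonneg_left ((norm_add_le _ _).trans
    (add_le_add h1 ((norm_star _).trans_le h2))) (norm_nonneg _)) ?_
  rw [show ‖(2⁻¹ : ℂ)‖ = 2⁻¹ by norm_num]
  linarith

theorem defect_symm {L : Alg M →L[ℂ] Alg N} {d e : ℝ} (hd : Defect L d)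
    (he : ∀ x, ‖L x - star (L (star x))‖ ≤ e * ‖x‖) (he0 : 0 ≤ e) :
    Defect (symm L) (d + e ^ 2 / 4) := fun x y => by
  have e1 : symm L (x * y) - symm L x * symm L y =
      (2⁻¹ : ℂ) • ((L (x * y) - L x * L y)
        + star (L (star y * star x) - L (star y) * L (star x)))
      + (4⁻¹ : ℂ) • ((L x - star (L (star x))) * (L y - star (L (star y)))) := by
    simp only [symm_apply, star_mul, star_sub, smul_mul_smul_comm, mul_add, add_mul, mul_sub,
      sub_mul]
    module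
  rw [e1]
  refine (norm_add_le _ _).trans ?_
  rw [norm_smul, norm_smul]
  have h1 : ‖(L (x * y) - L x * L y) + star (L (star y * star x) - L (star y) * L (star x))‖ ≤
      2 * (d * (‖x‖ * ‖y‖)) := by
    refine (norm_add_le _ _).trans ?_
    rw [norm_star, two_mul]
    refine add_le_add (hd x y) ((hd _ _).trans_eq ?_)
    rw [norm_star, norm_star, mul_comm ‖y‖]
  have h2 : ‖(L x - star (L (star x))) * (L y - star (L (star y)))‖ ≤
      e * ‖x‖ * (e * ‖y‖) :=
    (norm_mul_le _ _).trans (mul_le_mul (he x) (he y) (norm_nonneg _) (by positivity))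
  rw [show ‖(2⁻¹ : ℂ)‖ = 2⁻¹ by norm_num, show ‖(4⁻¹ : ℂ)‖ = 4⁻¹ by norm_num]
  nlinarith

/-- The size of a correction. -/
def gConst (K : ℝ) : ℝ := K * (2 + 8 * K)

/-- The constant of the quadratic step. -/
def stepConst (K : ℝ) : ℝ := 2 * (8 * K + 4 * gConst K + 3 * gConst K ^ 2) + 4 * gConst K ^ 2

/-- The obstruction of an almost multiplicative map, pulled back to the source. -/
theorem exists_obstruction {L : Alg M →L[ℂ] Alg N} {r d : ℝ} (hr : r ≤ 1 / 4) (hL : NearId L r)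
    (hd0 : 0 ≤ d) (hd : Defect L d) (hsur : Function.Surjective L) :
    ∃ f : Cochain M 2, ‖f‖ ≤ 2 * d ∧ ∀ x y, L (f ![x, y]) = L x * L y - L (x * y) := by
  have hinj := injective_of_near hL hr
  choose φ hφ using fun x y => hsur (L x * L y - L (x * y))
  have bφ : ∀ x y, ‖φ x y‖ ≤ 2 * d * (‖x‖ * ‖y‖) := fun x y => by
    refine ((norm_le_two hL hr _).2).trans ?_
    rw [hφ, norm_sub_rev, mul_assoc]
    exact mul_le_mul_of_nonneg_left (hd x y) zero_le_two
  have a1 : ∀ x x' y, φ (x + x') y = φ x y + φ x' y := fun x x' y => hinj (by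
    simp only [map_add, hφ, add_mul]; abel)
  have a2 : ∀ (c : ℂ) x y, φ (c • x) y = c • φ x y := fun c x y => hinj (by
    simp only [map_smul, hφ, smul_mul_assoc, smul_sub])
  have a3 : ∀ x y y', φ x (y + y') = φ x y + φ x y' := fun x y y' => hinj (by
    simp only [map_add, hφ, mul_add]; abel)
  have a4 : ∀ (c : ℂ) x y, φ x (c • y) = c • φ x y := fun c x y => hinj (by
    simp only [map_smul, hφ, mul_smul_comm, smul_sub])
  exact ⟨mk2 φ a1 a2 a3 a4 (2 * d) bφ, MultilinearMap.mkContinuous_norm_le _ (by positivity) _,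
    fun x y => hφ x y⟩

theorem norm_apply_two_le (f : Cochain M 2) {C : ℝ} (hf : ‖f‖ ≤ C) (x y : Alg M) :
    ‖f ![x, y]‖ ≤ C * (‖x‖ * ‖y‖) := by
  refine (f.le_of_opNorm_le hf _).trans_eq ?_
  rw [Fin.prod_univ_two]
  rfl

theorem map_add_left (f : Cochain M 2) (x x' y : Alg M) :
    f ![x + x', y] = f ![x, y] + f ![x', y] :=
  f.cons_add ![y] x x'

theorem map_smul_left (f : Cochain M 2) (c : ℂ) (x y : Alg M) :
    f ![c • x, y] = c • f ![x, y] :=
  f.cons_smul ![y] c x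

theorem map_add_right (f : Cochain M 2) (x y y' : Alg M) :
    f ![x, y + y'] = f ![x, y] + f ![x, y'] := by
  have e : ∀ z, Function.update ![x, 0] 1 z = ![x, z] := fun z => by
    funext i; fin_cases i <;> simp
  simpa only [e] using f.map_update_add ![x, 0] 1 y y'

theorem map_smul_right (f : Cochain M 2) (c : ℂ) (x y : Alg M) :
    f ![x, c • y] = c • f ![x, y] := by
  have e : ∀ z, Function.update ![x, 0] 1 z = ![x, z] := fun z => by
    funext i; fin_cases i <;> simp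
  simpa only [e] using f.map_update_smul ![x, 0] 1 c y

theorem map_sub_left (f : Cochain M 2) (x x' y : Alg M) :
    f ![x - x', y] = f ![x, y] - f ![x', y] := by
  rw [eq_sub_iff_add_eq, ← map_add_left, sub_add_cancel]

theorem map_sub_right (f : Cochain M 2) (x y y' : Alg M) :
    f ![x, y - y'] = f ![x, y] - f ![x, y'] := by
  rw [eq_sub_iff_add_eq, ← map_add_right, sub_add_cancel]

/-- Associativity: the differential of the obstruction is quadratic in it. -/
theorem assoc_identity {L : Alg M →L[ℂ] Alg N} (hinj : Function.Injective L) (f : Cochain M 2)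
    (hf : ∀ x y, L (f ![x, y]) = L x * L y - L (x * y)) (x y z : Alg M) :
    f ![f ![x, y], z] - f ![x, f ![y, z]] =
      x * f ![y, z] - f ![x * y, z] + f ![x, y * z] - f ![x, y] * z := hinj <| by
  have l1 : L (x * f ![y, z]) = L x * L (f ![y, z]) - L (f ![x, f ![y, z]]) := by
    rw [hf x (f ![y, z])]; abel
  have l2 : L (f ![x, y] * z) = L (f ![x, y]) * L z - L (f ![f ![x, y], z]) := by
    rw [hf (f ![x, y]) z]; abel
  simp only [map_sub, map_add, l1, l2, hf x y, hf y z, hf (x * y) z, hf x (y * z),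
    mul_assoc x y z]
  noncomm_ring

/-- The differential of the obstruction is small, and it has a small primitive. -/
theorem exists_small_primitive {K d : ℝ} (hK : 0 ≤ K) (hd0 : 0 ≤ d) (h2 : PrimBound M 2 K)
    {L : Alg M →L[ℂ] Alg N} (hinj : Function.Injective L) (f : Cochain M 2) (nf : ‖f‖ ≤ 2 * d)
    (hf : ∀ x y, L (f ![x, y]) = L x * L y - L (x * y)) :
    ∃ h : Cochain M 2, ‖h‖ ≤ 8 * K * d ^ 2 ∧ ∀ a, hochDiff (f - h) a = 0 := by
  have bF : ∀ x y z, ‖f ![f ![x, y], z] - f ![x, f ![y, z]]‖ ≤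
      8 * d ^ 2 * (‖x‖ * ‖y‖ * ‖z‖) := fun x y z => by
    refine (norm_sub_le _ _).trans ((add_le_add
      ((norm_apply_two_le f nf _ _).trans (mul_le_mul_of_nonneg_left (mul_le_mul_of_nonneg_right
        (norm_apply_two_le f nf x y) (norm_nonneg z)) (by positivity)))
      ((norm_apply_two_le f nf _ _).trans (mul_le_mul_of_nonneg_left (mul_le_mul_of_nonneg_left
        (norm_apply_two_le f nf y z) (norm_nonneg x)) (by positivity)))).trans_eq ?_)
    ring
  let F : Cochain M 3 := mk3 (fun x y z => f ![f ![x, y], z] - f ![x, f ![y, z]])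
    (fun x x' y z => by simp only [map_add_left]; abel)
    (fun c x y z => by simp only [map_smul_left, smul_sub])
    (fun x y y' z => by simp only [map_add_left, map_add_right]; abel)
    (fun c x y z => by simp only [map_smul_left, map_smul_right, smul_sub])
    (fun x y z z' => by simp only [map_add_right]; abel)
    (fun c x y z => by simp only [map_smul_right, smul_sub]) (8 * d ^ 2) bF
  have hF : ∀ a, F a = hochDiff f a := fun a => by
    rw [hochDiff_two]
    exact assoc_identity hinj f hf _ _ _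
  have hF0 : ∀ a, hochDiff F a = 0 := fun a => by
    simp only [hochDiff_three, hF, hochDiff_two]
    simp only [Matrix.cons_val_zero, Matrix.cons_val_one, Matrix.cons_val, mul_sub, sub_mul,
      mul_add, add_mul, mul_assoc]
    abel
  obtain ⟨h, hh, hhn⟩ := h2 F hF0
  have nF : ‖F‖ ≤ 8 * d ^ 2 := MultilinearMap.mkContinuous_norm_le _ (by positivity) _
  refine ⟨h, hhn.trans ((mul_le_mul_of_nonneg_left nF hK).trans_eq (by ring)), fun a => ?_⟩
  have : hochDiff (f - h) a = hochDiff f a - hochDiff h a := by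
    simp only [hochDiff_two, sub_apply, mul_sub, sub_mul]
    abel
  rw [this, ← hF, ← hh, sub_self]

/-- After the correction by a primitive, only quadratic terms are left. -/
theorem defect_correct {L : Alg M →L[ℂ] Alg N} {r d K G : ℝ} (hG : 0 ≤ G)
    (hd0 : 0 ≤ d) (hd1 : d ≤ 1) (hr : r ≤ 1 / 4) (hL : NearId L r) (f h : Cochain M 2)
    (nf : ‖f‖ ≤ 2 * d) (nh : ‖h‖ ≤ 8 * K * d ^ 2)
    (hf : ∀ x y, L (f ![x, y]) = L x * L y - L (x * y)) (γ : Alg M →L[ℂ] Alg M)
    (bγ : ∀ x, ‖γ x‖ ≤ G * d * ‖x‖)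
    (hγ : ∀ x y, f ![x, y] - h ![x, y] = x * γ y - γ (x * y) + γ x * y) :
    Defect (L - L.comp γ) (2 * (8 * K + 4 * G + 3 * G ^ 2) * d ^ 2) := fun x y => by
  have e0 : ∀ x, (L - L.comp γ) x = L (x - γ x) := fun x => by simp
  have e1 : ∀ u v, L u * L v = L (u * v + f ![u, v]) := fun u v => by rw [map_add, hf]; abel
  have key : (L - L.comp γ) x * (L - L.comp γ) y - (L - L.comp γ) (x * y) =
      L (h ![x, y] + γ x * γ y - f ![x, γ y] - f ![γ x, y] + f ![γ x, γ y]) := by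
    rw [e0, e0, e0, e1, ← map_sub]
    refine congrArg L ?_
    have e : h ![x, y] = f ![x, y] - (x * γ y - γ (x * y) + γ x * y) := by rw [← hγ]; abel
    rw [e, map_sub_left, map_sub_right, map_sub_right]
    noncomm_ring
  rw [norm_sub_rev, key]
  refine ((norm_le_two hL hr _).1).trans ?_
  have hd3 : d ^ 3 ≤ d ^ 2 := pow_le_pow_of_le_one hd0 hd1 (by norm_num)
  have p1 := norm_apply_two_le h nh x y
  have p2 : ‖γ x * γ y‖ ≤ G * d * ‖x‖ * (G * d * ‖y‖) :=
    (norm_mul_le _ _).trans (mul_le_mul (bγ x) (bγ y) (norm_nonneg _) (by positivity))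
  have p3 : ‖f ![x, γ y]‖ ≤ 2 * d * (‖x‖ * (G * d * ‖y‖)) := by
    refine (norm_apply_two_le f nf _ _).trans ?_
    gcongr
    exact bγ y
  have p4 : ‖f ![γ x, y]‖ ≤ 2 * d * (G * d * ‖x‖ * ‖y‖) := by
    refine (norm_apply_two_le f nf _ _).trans ?_
    gcongr
    exact bγ x
  have p5 : ‖f ![γ x, γ y]‖ ≤ 2 * d * (G * d * ‖x‖ * (G * d * ‖y‖)) := by
    refine (norm_apply_two_le f nf _ _).trans ?_
    gcongr
    · exact bγ x
    · exact bγ y
  have p6 := mul_le_mul_of_nonneg_right hd3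
    (show (0 : ℝ) ≤ G ^ 2 * (‖x‖ * ‖y‖) by positivity)
  have t1 := norm_add_le (h ![x, y] + γ x * γ y - f ![x, γ y] - f ![γ x, y]) (f ![γ x, γ y])
  have t2 := norm_sub_le (h ![x, y] + γ x * γ y - f ![x, γ y]) (f ![γ x, y])
  have t3 := norm_sub_le (h ![x, y] + γ x * γ y) (f ![x, γ y])
  have t4 := norm_add_le (h ![x, y]) (γ x * γ y)
  linear_combination 2 * t1 + 2 * t2 + 2 * t3 + 2 * t4 + 2 * p1 + 2 * p2 + 2 * p3 + 2 * p4 +
    2 * p5 + 4 * p6

/-- One step: the defect is squared. -/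
theorem step {K : ℝ} (hK : 0 ≤ K) (h1 : PrimBound M 1 K) (h2 : PrimBound M 2 K)
    {L : Alg M →L[ℂ] Alg N} {r d : ℝ} (hr : r ≤ 1 / 4) (hL : NearId L r) (hstar : StarLin L)
    (hd0 : 0 ≤ d) (hd1 : d ≤ 1) (hd : Defect L d) (hsur : Function.Surjective L) :
    ∃ L' : Alg M →L[ℂ] Alg N, StarLin L' ∧ Defect L' (stepConst K * d ^ 2) ∧
      ∀ x, ‖L' x - L x‖ ≤ 2 * gConst K * d * ‖x‖ := by
  obtain ⟨f, nf, hf⟩ := exists_obstruction hr hL hd0 hd hsur
  obtain ⟨h, nh, hfh⟩ := exists_small_primitive hK hd0 h2 (injective_of_near hL hr) f nf hf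
  obtain ⟨g, hg, hgn⟩ := h1 (f - h) hfh
  have hG : 0 ≤ gConst K := by unfold gConst; positivity
  have ng : ‖g‖ ≤ gConst K * d := by
    refine hgn.trans ?_
    rw [gConst, mul_assoc]
    refine mul_le_mul_of_nonneg_left ((norm_sub_le _ _).trans ?_) hK
    nlinarith [mul_le_mul_of_nonneg_left hd1 (show (0 : ℝ) ≤ 8 * K * d by positivity)]
  let γ : Alg M →L[ℂ] Alg M := g.toContinuousLinearMap (fun _ => 0) 0
  have γ_apply : ∀ x, γ x = g ![x] := fun x => congrArg g (funext fun i => by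
    fin_cases i; simp)
  have bγ : ∀ x, ‖γ x‖ ≤ gConst K * d * ‖x‖ := fun x => by
    rw [γ_apply]
    refine (g.le_of_opNorm_le ng _).trans_eq ?_
    rw [Fin.prod_univ_one]
    rfl
  have d1 := defect_correct hG hd0 hd1 hr hL f h nf nh hf γ bγ fun x y => by
    have := hg ![x, y]
    rw [hochDiff_one] at this
    simpa [γ_apply] using this
  have b1 : ∀ x, ‖(L - L.comp γ) x - L x‖ ≤ 2 * gConst K * d * ‖x‖ := fun x => by
    rw [sub_apply, sub_sub_cancel_left, norm_neg]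
    refine ((norm_le_two hL hr _).1).trans ?_
    exact (mul_le_mul_of_nonneg_left (bγ x) zero_le_two).trans_eq (by ring)
  refine ⟨symm (L - L.comp γ), starLin_symm _, ?_, norm_symm_sub_le _ L hstar b1⟩
  have he : ∀ x, ‖(L - L.comp γ) x - star ((L - L.comp γ) (star x))‖ ≤
      4 * gConst K * d * ‖x‖ := fun x => by
    have q := b1 (star x)
    rw [norm_star, ← norm_star ((L - L.comp γ) (star x) - L (star x)), star_sub, hstar,
      star_star] at q
    have := norm_sub_le_norm_sub_add_norm_sub ((L - L.comp γ) x) (L x)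
      (star ((L - L.comp γ) (star x)))
    rw [norm_sub_rev (L x)] at this
    linarith [b1 x]
  have := defect_symm d1 he (by positivity)
  intro x y
  refine (this x y).trans_eq ?_
  simp only [stepConst]
  ring

/-- The symmetrised map is as near. -/
theorem nearId_symm {L : Alg M →L[ℂ] Alg N} {η : ℝ} (hL : NearId L η) : NearId (symm L) η :=
  fun x => by
    have e1 : ((symm L x : Alg N) : H →L[ℂ] H) - (x : H →L[ℂ] H) =
        (2⁻¹ : ℂ) • (((L x : H →L[ℂ] H) - (x : H →L[ℂ] H)) +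
          star ((L (star x) : H →L[ℂ] H) - ((star x : Alg M) : H →L[ℂ] H))) := by
      rw [symm_apply, star_sub, StarMemClass.coe_star, star_star]
      push_cast
      module
    have q := hL (star x)
    rw [norm_star] at q
    rw [e1, norm_smul]
    refine (mul_le_mul_of_nonneg_left ((norm_add_le _ _).trans
      (add_le_add (hL x) ((norm_star _).trans_le q))) (norm_nonneg _)).trans ?_
    rw [show ‖(2⁻¹ : ℂ)‖ = 2⁻¹ by norm_num]
    linarith

theorem defect_of_near {T : Alg M →L[ℂ] Alg N} {η : ℝ} (hη : 0 ≤ η) (hη4 : η ≤ 1 / 4)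
    (hT : NearId T η) : Defect T (4 * η) := fun x y => by
  have hxy : ‖((x * y : Alg M) : H →L[ℂ] H)‖ ≤ ‖x‖ * ‖y‖ := norm_mul_le x.1 y.1
  have b : ‖(T x : H →L[ℂ] H)‖ ≤ 2 * ‖x‖ := (norm_le_two hT hη4 x).1
  have p1 : ‖(T (x * y) : H →L[ℂ] H) - ((x * y : Alg M) : H →L[ℂ] H)‖ ≤ η * (‖x‖ * ‖y‖) :=
    (hT (x * y)).trans (mul_le_mul_of_nonneg_left hxy hη)
  have p2 : ‖((T x : H →L[ℂ] H) - (x : H →L[ℂ] H)) * (y : H →L[ℂ] H)‖ ≤ η * ‖x‖ * ‖y‖ :=
    (norm_mul_le _ _).trans (mul_le_mul_of_nonneg_right (hT x) (norm_nonneg _))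
  have p3 : ‖(T x : H →L[ℂ] H) * ((T y : H →L[ℂ] H) - (y : H →L[ℂ] H))‖ ≤
      2 * ‖x‖ * (η * ‖y‖) :=
    (norm_mul_le _ _).trans (mul_le_mul b (hT y) (norm_nonneg _)
      (mul_nonneg zero_le_two (norm_nonneg x)))
  have e : (T (x * y) : H →L[ℂ] H) - (T x : H →L[ℂ] H) * (T y : H →L[ℂ] H) =
      ((T (x * y) : H →L[ℂ] H) - ((x * y : Alg M) : H →L[ℂ] H)) -
      ((T x : H →L[ℂ] H) - (x : H →L[ℂ] H)) * (y : H →L[ℂ] H) -
      (T x : H →L[ℂ] H) * ((T y : H →L[ℂ] H) - (y : H →L[ℂ] H)) := by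
    rw [MulMemClass.coe_mul, sub_mul, mul_sub]
    abel
  show ‖(T (x * y) : H →L[ℂ] H) - (T x : H →L[ℂ] H) * (T y : H →L[ℂ] H)‖ ≤ _
  rw [e]
  refine ((norm_sub_le _ _).trans (add_le_add ((norm_sub_le _ _).trans (add_le_add p1 p2))
    p3)).trans_eq ?_
  ring

/-- The next map of the iteration. -/
theorem exists_next {K : ℝ} (hK : 0 ≤ K) (h1 : PrimBound M 1 K) (h2 : PrimBound M 2 K)
    {η γ a : ℝ} (hη : 0 ≤ η) (ha : a = 16 * gConst K * η)
    (hsmall : η + a + stepConst K * η ≤ 1 / 8) (hγ : γ ≤ 1 / 8)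
    (hN : ∀ y : Alg N, ∃ x : Alg M, ‖(x : H →L[ℂ] H) - (y : H →L[ℂ] H)‖ ≤ γ * ‖y‖)
    (n : ℕ) {T : Alg M →L[ℂ] Alg N} (s1 : StarLin T) (s2 : Defect T (4 * η * (1 / 2) ^ n))
    (s3 : NearId T (η + a * (1 - (1 / 2) ^ n))) :
    ∃ T', (StarLin T' ∧ Defect T' (4 * η * (1 / 2) ^ (n + 1)) ∧
        NearId T' (η + a * (1 - (1 / 2) ^ (n + 1)))) ∧
      ∀ x, ‖T' x - T x‖ ≤ a / 2 / 2 ^ n * ‖x‖ := by
  have hp0 : (0 : ℝ) < (1 / 2 : ℝ) ^ n := by positivity
  have hp1 : (1 / 2 : ℝ) ^ n ≤ 1 := pow_le_one₀ (by norm_num) (by norm_num)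
  have hG : 0 ≤ gConst K := by unfold gConst; positivity
  have hS : 0 ≤ stepConst K := by unfold stepConst; positivity
  have ha0 : 0 ≤ a := by rw [ha]; positivity
  have hSη : 0 ≤ stepConst K * η := mul_nonneg hS hη
  have hr : η + a * (1 - (1 / 2 : ℝ) ^ n) ≤ 1 / 4 := by nlinarith
  obtain ⟨T', t1, t2, t3⟩ := step hK h1 h2 hr s3 s1 (by positivity) (by nlinarith) s2
    (surjective_of_near s3 hr hγ hN)
  have e2 : a / 2 / 2 ^ n = 2 * gConst K * (4 * η * (1 / 2) ^ n) := by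
    rw [ha, one_div, inv_pow]; field_simp; ring
  refine ⟨T', ⟨t1, fun x y => (t2 x y).trans ?_, fun x => ?_⟩, fun x => e2 ▸ t3 x⟩
  · refine mul_le_mul_of_nonneg_right ?_ (mul_nonneg (norm_nonneg x) (norm_nonneg y))
    rw [pow_succ (1 / 2 : ℝ) n]
    have q1 : stepConst K * η * (1 / 2) ^ n ≤ 1 / 8 := by nlinarith
    have := mul_le_mul_of_nonneg_right q1 (show (0 : ℝ) ≤ 16 * η * (1 / 2) ^ n by positivity)
    nlinarith
  · have q : ‖(T' x : H →L[ℂ] H) - (T x : H →L[ℂ] H)‖ ≤ a / 2 / 2 ^ n * ‖x‖ := e2 ▸ t3 x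
    refine (norm_sub_le_norm_sub_add_norm_sub (T' x : H →L[ℂ] H) (T x : H →L[ℂ] H)
      (x : H →L[ℂ] H)).trans ((add_le_add q (s3 x)).trans_eq ?_)
    rw [pow_succ, one_div, inv_pow]
    field_simp
    ring

/-- The limit: a ⋆-isomorphism near the identity. -/
theorem exists_mul_near {K : ℝ} (hK : 0 ≤ K) (h1 : PrimBound M 1 K) (h2 : PrimBound M 2 K)
    {L : Alg M →L[ℂ] Alg N} {η γ : ℝ} (hη : 0 ≤ η) (hL : NearId L η) (hγ : γ ≤ 1 / 8)
    (hN : ∀ y : Alg N, ∃ x : Alg M, ‖(x : H →L[ℂ] H) - (y : H →L[ℂ] H)‖ ≤ γ * ‖y‖)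
    (hsmall : (1 + 16 * gConst K + stepConst K) * η ≤ 1 / 8) :
    ∃ θ : Alg M →L[ℂ] Alg N, StarLin θ ∧ (∀ x y, θ (x * y) = θ x * θ y) ∧
      NearId θ ((1 + 16 * gConst K) * η) ∧ Function.Surjective θ := by
  have hG : 0 ≤ gConst K := by unfold gConst; positivity
  have hS : 0 ≤ stepConst K := by unfold stepConst; positivity
  set a : ℝ := 16 * gConst K * η with ha
  have ha0 : 0 ≤ a := by positivity
  have hsmall' : η + a + stepConst K * η ≤ 1 / 8 := by rw [ha]; linarith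
  have hSη : 0 ≤ stepConst K * η := by positivity
  have hpow : ∀ n : ℕ, (0 : ℝ) < (1 / 2 : ℝ) ^ n ∧ (1 / 2 : ℝ) ^ n ≤ 1 := fun n =>
    ⟨by positivity, pow_le_one₀ (by norm_num) (by norm_num)⟩
  let Good : ℕ → (Alg M →L[ℂ] Alg N) → Prop := fun n T =>
    StarLin T ∧ Defect T (4 * η * (1 / 2) ^ n) ∧ NearId T (η + a * (1 - (1 / 2) ^ n))
  have near_bound : ∀ n, η + a * (1 - (1 / 2 : ℝ) ^ n) ≤ η + a := fun n => by
    nlinarith [(hpow n).1]
  have near0 : NearId (symm L) η := nearId_symm hL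
  have good0 : Good 0 (symm L) :=
    ⟨starLin_symm L, by simpa using defect_of_near hη (by linarith) near0, by simpa using near0⟩
  have next_ : ∀ n T, Good n T → ∃ T', Good (n + 1) T' ∧
      ∀ x, ‖T' x - T x‖ ≤ a / 2 / 2 ^ n * ‖x‖ := by
    rintro n T ⟨s1, s2, s3⟩
    exact exists_next hK h1 h2 hη ha hsmall' hγ hN n s1 s2 s3
  choose nxt hn1 hn2 using next_
  let seq : (n : ℕ) → {T // Good n T} := fun n =>
    Nat.rec (motive := fun n => {T // Good n T}) ⟨symm L, good0⟩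
      (fun n p => ⟨nxt n p.1 p.2, hn1 n p.1 p.2⟩) n
  have hdist : ∀ n, dist (seq n).1 (seq (n + 1)).1 ≤ a / 2 / 2 ^ n := fun n => by
    rw [dist_comm, dist_eq_norm]
    exact ContinuousLinearMap.opNorm_le_bound _ (by positivity)
      (hn2 n (seq n).1 (seq n).2)
  obtain ⟨θ, hθ⟩ := cauchySeq_tendsto_of_complete (cauchySeq_of_le_geometric_two hdist)
  have hev : ∀ x, Filter.Tendsto (fun n => (seq n).1 x) Filter.atTop (nhds (θ x)) := fun x =>
    ((ContinuousLinearMap.apply ℂ (Alg N) x).continuous.tendsto θ).comp hθ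
  have hnear : NearId θ ((1 + 16 * gConst K) * η) := fun x => by
    have hc : Continuous fun z : Alg N => ‖(z : H →L[ℂ] H) - (x : H →L[ℂ] H)‖ := by fun_prop
    refine le_of_tendsto' ((hc.tendsto _).comp (hev x)) fun n => ((seq n).2.2.2 x).trans ?_
    refine mul_le_mul_of_nonneg_right ((near_bound n).trans_eq ?_) (norm_nonneg _)
    rw [ha]; ring
  refine ⟨θ, fun x => tendsto_nhds_unique (hev (star x)) ?_, fun x y => ?_, hnear,
    surjective_of_near hnear (by linarith) hγ hN⟩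
  · exact ((continuous_star.tendsto _).comp (hev x)).congr fun n => ((seq n).2.1 x).symm
  · have hlim : Filter.Tendsto (fun n => ‖(seq n).1 (x * y) - (seq n).1 x * (seq n).1 y‖)
        Filter.atTop (nhds ‖θ (x * y) - θ x * θ y‖) :=
      ((hev _).sub ((hev x).mul (hev y))).norm
    have hz : Filter.Tendsto (fun n : ℕ => 4 * η * (1 / 2 : ℝ) ^ n * (‖x‖ * ‖y‖))
        Filter.atTop (nhds 0) := by
      simpa using ((tendsto_pow_atTop_nhds_zero_of_lt_one (by norm_num : (0 : ℝ) ≤ 1 / 2)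
        (by norm_num)).const_mul (4 * η)).mul_const (‖x‖ * ‖y‖)
    exact sub_eq_zero.1 (norm_le_zero_iff.1
      (le_of_tendsto_of_tendsto' hlim hz fun n => (seq n).2.2.1 x y))

end Vale.Agent.P096.Linear
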