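import Vale.Agent.P096.Linear.Sum
import Vale.Agent.P096.Linear.Near
import Vale.Agent.P104.Iface

/-!
# P096: isomorphisms near the identity are spatial; commutants
-/

namespace Vale.Agent.P096.Linear

open scoped InnerProductSpace
open Vale.Agent.P082 (Alg)
open Vale.Agent.P104.Iface (StmtDistRep)

universe u

variable {H : Type u} [NormedAddCommGroup H] [InnerProductSpace ℂ H] [CompleteSpace H]
variable {M N : VonNeumannAlgebra H}

/-- Two copies of the space. -/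
abbrev Dbl (H : Type u) [NormedAddCommGroup H] := lp (fun _ : Bool => H) 2

/-- The pair `x`, `θ x`. -/
noncomputable def pairVal (θ : Alg M →L[ℂ] Alg N) (x : Alg M) (b : Bool) : H →L[ℂ] H :=
  cond b (θ x : H →L[ℂ] H) (x : H →L[ℂ] H)

theorem norm_pairVal_le {θ : Alg M →L[ℂ] Alg N} {r : ℝ} (hθ : NearId θ r) (hr : r ≤ 1 / 4)
    (x : Alg M) (b : Bool) : ‖pairVal θ x b‖ ≤ 2 * ‖x‖ := by
  cases b
  · show ‖(x : H →L[ℂ] H)‖ ≤ 2 * ‖x‖
    linarith [norm_nonneg x, show ‖(x : H →L[ℂ] H)‖ = ‖x‖ from rfl]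
  · exact (norm_le_two hθ hr x).1

omit [CompleteSpace H] in
/-- A map of the double space by its two coordinates. -/
theorem ext_dbl {A B : Dbl H →L[ℂ] Dbl H}
    (h : ∀ ξ b, A ξ b = B ξ b) : A = B :=
  ContinuousLinearMap.ext fun ξ => lp.ext (funext (h ξ))

omit [CompleteSpace H] in
theorem inner_dbl (ξ η : Dbl H) : ⟪ξ, η⟫_ℂ = ⟪ξ true, η true⟫_ℂ + ⟪ξ false, η false⟫_ℂ := by
  rw [lp.inner_eq_tsum, tsum_bool]
  exact add_comm _ _

/-- The representation `x ↦ x ⊕ θ x`. -/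
noncomputable def pairRep {θ : Alg M →L[ℂ] Alg N} {r : ℝ} (hθ : NearId θ r) (hr : r ≤ 1 / 4)
    (hstar : StarLin θ) (hmul : ∀ x y, θ (x * y) = θ x * θ y) (h1 : θ 1 = 1) :
    Alg M →⋆ₐ[ℂ] (Dbl H →L[ℂ] Dbl H) where
  toFun x := diag (pairVal θ x) (2 * ‖x‖) (norm_pairVal_le hθ hr x)
  map_one' := ext_dbl fun ξ b => by
    rw [diag_apply]
    cases b <;> simp [pairVal, h1]
  map_mul' x y := ext_dbl fun ξ b => by
    rw [mul_apply_eq_comp, diag_apply, diag_apply, diag_apply]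
    cases b <;> simp [pairVal, hmul]
  map_zero' := ext_dbl fun ξ b => by
    rw [diag_apply]
    cases b <;> simp [pairVal]
  map_add' x y := ext_dbl fun ξ b => by
    rw [diag_apply, add_apply, lp.coeFn_add, Pi.add_apply, diag_apply, diag_apply]
    cases b <;> simp [pairVal]
  commutes' c := ext_dbl fun ξ b => by
    rw [Algebra.algebraMap_eq_smul_one, Algebra.algebraMap_eq_smul_one, diag_apply,
      smul_apply, lp.coeFn_smul, Pi.smul_apply]
    cases b <;> simp [pairVal, h1]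
  map_star' x := by
    rw [ContinuousLinearMap.star_eq_adjoint]
    refine (ContinuousLinearMap.eq_adjoint_iff _ _).2 fun ξ η => ?_
    simp only [inner_dbl, diag_apply, pairVal, hstar x, cond_true, cond_false,
      StarMemClass.coe_star, ContinuousLinearMap.star_eq_adjoint,
      ContinuousLinearMap.adjoint_inner_left]

/-- The swap2 of the two copies. -/
noncomputable def swap2 : Dbl H →L[ℂ] Dbl H :=
  LinearMap.mkContinuous
    { toFun := fun ξ => ⟨fun b => ξ (!b), Memℓp.all _⟩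
      map_add' := fun ξ η => rfl
      map_smul' := fun c ξ => rfl }
    1 fun ξ => by
      rw [one_mul]
      refine lp.norm_le_of_tsum_le (by norm_num) (norm_nonneg _) ?_
      rw [lp.norm_rpow_eq_tsum (by norm_num) ξ, tsum_bool, tsum_bool]
      exact (add_comm _ _).le

omit [CompleteSpace H] in
theorem swap2_apply (ξ : Dbl H) (b : Bool) : swap2 ξ b = ξ (!b) := rfl

theorem isSelfAdjoint_swap2 : IsSelfAdjoint (swap2 : Dbl H →L[ℂ] Dbl H) := by
  rw [isSelfAdjoint_iff, ContinuousLinearMap.star_eq_adjoint]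
  refine ((ContinuousLinearMap.eq_adjoint_iff _ _).2 fun ξ η => ?_).symm
  simp only [inner_dbl, swap2_apply, Bool.not_true, Bool.not_false]
  exact add_comm _ _

theorem norm_swap2_comm {θ : Alg M →L[ℂ] Alg N} {r : ℝ} (hθ : NearId θ r) (hr0 : 0 ≤ r)
    (hr : r ≤ 1 / 4) (hstar : StarLin θ) (hmul : ∀ x y, θ (x * y) = θ x * θ y) (h1 : θ 1 = 1)
    (x : Alg M) :
    ‖swap2 * pairRep hθ hr hstar hmul h1 x - pairRep hθ hr hstar hmul h1 x * swap2‖ ≤ r * ‖x‖ := by
  set D : Bool → H →L[ℂ] H := fun b => pairVal θ x (!b) - pairVal θ x b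
  have hD : ∀ b, ‖D b‖ ≤ r * ‖x‖ := fun b => by
    cases b
    · exact hθ x
    · exact (norm_sub_rev _ _).trans_le (hθ x)
  have e : swap2 * pairRep hθ hr hstar hmul h1 x - pairRep hθ hr hstar hmul h1 x * swap2 =
      diag D (r * ‖x‖) hD * swap2 := ext_dbl fun ξ b => by
    rw [sub_apply, lp.coeFn_sub, Pi.sub_apply, mul_apply_eq_comp, mul_apply_eq_comp,
      mul_apply_eq_comp, swap2_apply, diag_apply]
    rfl
  rw [e]
  refine (norm_mul_le _ _).trans ((mul_le_mul_of_nonneg_right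
    (norm_diag_le D (mul_nonneg hr0 (norm_nonneg x)) hD) (norm_nonneg _)).trans
      (mul_le_of_le_one_right (mul_nonneg hr0 (norm_nonneg x))
        (LinearMap.mkContinuous_norm_le _ zero_le_one _)))

/-- The polar part of an operator near one. -/
theorem exists_polar {S : H →L[ℂ] H} {e : ℝ} [Nontrivial H] (hS1 : ‖S - 1‖ ≤ e) (he : e ≤ 1 / 8) :
    ∃ w : H →L[ℂ] H, S * w ∈ unitary (H →L[ℂ] H) ∧ ‖S * w - 1‖ ≤ 13 * e ∧
      ∀ x, Commute (star S * S) x → Commute w x := by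
  have he0 : 0 ≤ e := (norm_nonneg _).trans hS1
  have hSn : ‖S‖ ≤ 2 := by
    have := norm_le_norm_add_norm_sub' S 1
    rw [norm_one] at this
    linarith
  set a : H →L[ℂ] H := star S * S with ha
  have hsa : IsSelfAdjoint a := IsSelfAdjoint.star_mul_self S
  have ha1 : ‖a - 1‖ ≤ 3 * e := by
    have e0 : a - 1 = star (S - 1) * S + (S - 1) := by
      rw [star_sub, star_one, ha]; noncomm_ring
    rw [e0]
    refine (norm_add_le _ _).trans ?_
    have := (norm_mul_le (star (S - 1)) S).trans (mul_le_mul ((norm_star _).trans_le hS1) hSn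
      (norm_nonneg _) he0)
    linarith
  have hspec : ∀ t ∈ spectrum ℝ a, |t - 1| ≤ 3 * e := fun t ht => by
    have : t - 1 ∈ spectrum ℝ (a - 1) := by
      have := spectrum.sub_singleton_eq a (1 : ℝ)
      rw [map_one] at this
      rw [← this]
      exact Set.sub_mem_sub ht rfl
    exact (spectrum.norm_le_norm_of_mem this).trans ha1
  have hpos : ∀ t ∈ spectrum ℝ a, 1 / 2 ≤ t := fun t ht => by
    linarith [(abs_le.1 (hspec t ht)).1]
  set φ : ℝ → ℝ := fun t => (Real.sqrt t)⁻¹ with hφ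
  have hcont : ContinuousOn φ (spectrum ℝ a) :=
    (Real.continuous_sqrt.continuousOn).inv₀ fun t ht => by
      have := hpos t ht
      exact (Real.sqrt_pos.2 (by linarith)).ne'
  set w : H →L[ℂ] H := cfc φ a with hw
  have hwsa : IsSelfAdjoint w := cfc_predicate _ _
  have hwaw : w * a * w = 1 := by
    have h1 : cfc φ a * a = cfc (fun t => φ t * t) a := by
      rw [cfc_mul φ (fun t => t) a hcont continuousOn_id, cfc_id' ℝ a hsa]
    rw [hw, h1, ← cfc_mul (fun t => φ t * t) φ a (hcont.mul continuousOn_id) hcont]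
    rw [← cfc_one ℝ a hsa]
    refine cfc_congr fun t ht => ?_
    have h0 : 0 ≤ t := by linarith [hpos t ht]
    have hq : Real.sqrt t ≠ 0 := (Real.sqrt_pos.2 (by linarith [hpos t ht])).ne'
    show (Real.sqrt t)⁻¹ * t * (Real.sqrt t)⁻¹ = 1
    field_simp
    rw [Real.sq_sqrt h0]
  have hwn : ‖w - 1‖ ≤ 6 * e := by
    rw [hw, ← cfc_one ℝ a hsa, ← cfc_sub φ 1 a hcont continuousOn_const]
    refine norm_cfc_le (by positivity) fun t ht => ?_
    have h2 := hpos t ht
    have hq : 1 / 2 ≤ Real.sqrt t := Real.le_sqrt_of_sq_le (by linarith)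
    rw [Real.norm_eq_abs, Pi.one_apply, hφ]
    have e1 : (Real.sqrt t)⁻¹ - 1 = (1 - t) / (Real.sqrt t * (1 + Real.sqrt t)) := by
      have := Real.sq_sqrt (show 0 ≤ t by linarith)
      have hq0 : Real.sqrt t ≠ 0 := by linarith
      field_simp
      linear_combination -this
    simp only [e1, abs_div, abs_sub_comm (1 : ℝ) t]
    rw [abs_of_pos (show 0 < Real.sqrt t * (1 + Real.sqrt t) by positivity)]
    rw [div_le_iff₀ (by positivity)]
    have := hspec t ht
    nlinarith [mul_le_mul hq (show (1 : ℝ) ≤ 1 + Real.sqrt t by linarith) zero_le_one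
      (Real.sqrt_nonneg t)]
  set u : H →L[ℂ] H := S * w with hu
  have huu : star u * u = 1 := by
    rw [hu, star_mul, hwsa.star_eq, mul_assoc, ← mul_assoc (star S) S w, ← ha, ← mul_assoc,
      hwaw]
  have hu1 : ‖u - 1‖ ≤ 13 * e := by
    have e0 : u - 1 = S * (w - 1) + (S - 1) := by rw [hu]; noncomm_ring
    rw [e0]
    refine (norm_add_le _ _).trans ?_
    have := (norm_mul_le S (w - 1)).trans (mul_le_mul hSn hwn (norm_nonneg _) zero_le_two)
    linarith
  have hSu : IsUnit S := by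
    have := isUnit_one_sub_of_norm_lt_one (x := 1 - S) (by rw [norm_sub_rev]; linarith)
    rwa [sub_sub_cancel] at this
  have hwu : IsUnit w :=
    sub_sub_cancel (1 : H →L[ℂ] H) w ▸
      isUnit_one_sub_of_norm_lt_one (x := 1 - w) (by rw [norm_sub_rev]; linarith)
  have huu' : u * star u = 1 := by
    obtain ⟨v, hv⟩ := hSu.mul hwu
    have e' : star u = ((v⁻¹ : (H →L[ℂ] H)ˣ) : H →L[ℂ] H) :=
      left_inv_eq_right_inv huu (by rw [hu, ← hv, Units.mul_inv])
    rw [e', hu, ← hv, Units.mul_inv]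
  exact ⟨w, ⟨huu, huu'⟩, hu1, fun x hx => hx.cfc_real φ⟩

/-- An operator near one between the identity representation and `θ`. -/
theorem exists_intertwiner {K : ℝ} (hK0 : 0 ≤ K)
    (hK : ∀ (A : Type u) [CStarAlgebra A]
      (X : Type u) [NormedAddCommGroup X] [InnerProductSpace ℂ X] [CompleteSpace X]
      (σ : A →⋆ₐ[ℂ] (X →L[ℂ] X)) (h : X →L[ℂ] X) (g : ℝ), IsSelfAdjoint h → 0 ≤ g →
      (∀ a, ‖h * σ a - σ a * h‖ ≤ g * ‖a‖) →
      ∃ T : X →L[ℂ] X, IsSelfAdjoint T ∧ (∀ a, T * σ a = σ a * T) ∧ ‖h - T‖ ≤ K * g)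
    {θ : Alg M →L[ℂ] Alg N} {r : ℝ} (hθ : NearId θ r) (hr0 : 0 ≤ r) (hr : r ≤ 1 / 4)
    (hstar : StarLin θ) (hmul : ∀ x y, θ (x * y) = θ x * θ y) (h1 : θ 1 = 1) :
    ∃ S : H →L[ℂ] H, ‖S - 1‖ ≤ K * r ∧
      ∀ x : Alg M, S * (x : H →L[ℂ] H) = (θ x : H →L[ℂ] H) * S := by
  obtain ⟨T, -, hT, hTn⟩ := hK (Alg M) (Dbl H) (pairRep hθ hr hstar hmul h1) swap2 r
    isSelfAdjoint_swap2 hr0 (norm_swap2_comm hθ hr0 hr hstar hmul h1)
  set S : H →L[ℂ] H := (coord (H := fun _ : Bool => H) true).comp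
    (T.comp (inj (H := fun _ : Bool => H) false)) with hS
  have hSx : ∀ x : Alg M, S * (x : H →L[ℂ] H) = (θ x : H →L[ℂ] H) * S := fun x =>
    ContinuousLinearMap.ext fun v => by
      have e1 : pairRep hθ hr hstar hmul h1 x (inj (H := fun _ : Bool => H) false v) =
          inj (H := fun _ : Bool => H) false ((x : H →L[ℂ] H) v) := lp.ext <| funext fun b => by
        show pairVal θ x b ((inj (H := fun _ : Bool => H) false v : Dbl H) b) = _
        cases b
        · rw [← coord_apply, coord_inj, ← coord_apply, coord_inj]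
          rfl
        · rw [inj_apply_ne (by simp), inj_apply_ne (by simp), map_zero]
      have := congrArg (fun F : Dbl H →L[ℂ] Dbl H =>
        F (inj (H := fun _ : Bool => H) false v) true) (hT x)
      simp only [mul_apply_eq_comp, e1] at this
      exact this
  have hS1 : ‖S - 1‖ ≤ K * r := by
    refine ContinuousLinearMap.opNorm_le_bound _ (mul_nonneg hK0 hr0) fun v => ?_
    have e : (S - 1) v = -coord (H := fun _ : Bool => H) true
        ((swap2 - T : Dbl H →L[ℂ] Dbl H) (inj (H := fun _ : Bool => H) false v)) := by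
      have ev : (inj (H := fun _ : Bool => H) false v : Dbl H) false = v := by
        rw [← coord_apply, coord_inj]
      simp [hS, sub_apply, map_sub, coord_apply, swap2_apply, ev]
    rw [e, norm_neg]
    refine (norm_coord_apply_le _ _).trans (((swap2 - T : Dbl H →L[ℂ] Dbl H).le_opNorm _).trans ?_)
    rw [norm_inj_apply]
    exact mul_le_mul_of_nonneg_right hTn (norm_nonneg _)
  exact ⟨S, hS1, hSx⟩

/-- A multiplicative ⋆-map near the identity is given by a unitary near one. -/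
theorem exists_unitary {K : ℝ} (hK0 : 0 ≤ K)
    (hK : ∀ (A : Type u) [CStarAlgebra A]
      (X : Type u) [NormedAddCommGroup X] [InnerProductSpace ℂ X] [CompleteSpace X]
      (σ : A →⋆ₐ[ℂ] (X →L[ℂ] X)) (h : X →L[ℂ] X) (g : ℝ), IsSelfAdjoint h → 0 ≤ g →
      (∀ a, ‖h * σ a - σ a * h‖ ≤ g * ‖a‖) →
      ∃ T : X →L[ℂ] X, IsSelfAdjoint T ∧ (∀ a, T * σ a = σ a * T) ∧ ‖h - T‖ ≤ K * g)
    {θ : Alg M →L[ℂ] Alg N} {r : ℝ} (hθ : NearId θ r) (hr0 : 0 ≤ r) (hr : r ≤ 1 / 4)
    (hstar : StarLin θ) (hmul : ∀ x y, θ (x * y) = θ x * θ y) (hsur : Function.Surjective θ)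
    (he : K * r ≤ 1 / 8) :
    ∃ u : H →L[ℂ] H, u ∈ unitary (H →L[ℂ] H) ∧ ‖u - 1‖ ≤ 13 * (K * r) ∧
      ∀ y, y ∈ N ↔ ∃ x ∈ M, u * x * star u = y := by
  have h1 : θ 1 = 1 := by
    obtain ⟨z, hz⟩ := hsur 1
    have := hmul 1 z
    rw [one_mul, hz, mul_one] at this
    exact this.symm
  obtain ⟨S, hS1, hSx⟩ := exists_intertwiner hK0 hK hθ hr0 hr hstar hmul h1
  rcases subsingleton_or_nontrivial H with hH | hH
  · refine ⟨1, one_mem _, ?_, fun y => ?_⟩
    · rw [sub_self, norm_zero]; positivity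
    · refine ⟨fun _ => ⟨1, one_mem M, Subsingleton.elim _ _⟩, fun _ => ?_⟩
      rw [Subsingleton.elim y 1]; exact one_mem N
  obtain ⟨w, ⟨huu, huu'⟩, hu1, hwc⟩ := exists_polar hS1 he
  set u : H →L[ℂ] H := S * w with hu
  have hconj : ∀ x : Alg M, u * (x : H →L[ℂ] H) * star u = (θ x : H →L[ℂ] H) := fun x => by
    have c1 : star S * (θ x : H →L[ℂ] H) = (x : H →L[ℂ] H) * star S := by
      have := congrArg star (hSx (star x))
      rw [star_mul, star_mul, hstar, StarMemClass.coe_star, StarMemClass.coe_star, star_star,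
        star_star] at this
      exact this.symm
    have c2 : Commute (star S * S) (x : H →L[ℂ] H) := by
      show star S * S * (x : H →L[ℂ] H) = (x : H →L[ℂ] H) * (star S * S)
      rw [mul_assoc, hSx, ← mul_assoc, c1, mul_assoc]
    have c3 : w * (x : H →L[ℂ] H) = (x : H →L[ℂ] H) * w := (hwc _ c2).eq
    have c4 : u * (x : H →L[ℂ] H) = (θ x : H →L[ℂ] H) * u := by
      rw [hu, mul_assoc, c3, ← mul_assoc, hSx, mul_assoc]
    rw [c4, mul_assoc, huu', mul_one]
  refine ⟨u, ⟨huu, huu'⟩, hu1, fun y => ⟨fun hy => ?_, ?_⟩⟩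
  · obtain ⟨x, hx⟩ := hsur ⟨y, hy⟩
    exact ⟨x.1, x.2, (hconj x).trans (congrArg Subtype.val hx)⟩
  · rintro ⟨x, hx, rfl⟩
    rw [hconj ⟨x, hx⟩]
    exact (θ ⟨x, hx⟩).2

/-- A near inclusion of algebras gives one of the commutants, the other way round. -/
theorem exists_commutant_near {K : ℝ} (hK0 : 0 ≤ K)
    (hK : ∀ (A : Type u) [CStarAlgebra A]
      (X : Type u) [NormedAddCommGroup X] [InnerProductSpace ℂ X] [CompleteSpace X]
      (σ : A →⋆ₐ[ℂ] (X →L[ℂ] X)) (h : X →L[ℂ] X) (g : ℝ), IsSelfAdjoint h → 0 ≤ g →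
      (∀ a, ‖h * σ a - σ a * h‖ ≤ g * ‖a‖) →
      ∃ T : X →L[ℂ] X, IsSelfAdjoint T ∧ (∀ a, T * σ a = σ a * T) ∧ ‖h - T‖ ≤ K * g)
    {δ : ℝ} (hδ : 0 ≤ δ)
    (hMN : ∀ x ∈ M, ∃ y ∈ N, ‖x - y‖ ≤ δ * ‖x‖) {t : H →L[ℂ] H} (ht : t ∈ N.commutant) :
    ∃ s ∈ M.commutant, ‖t - s‖ ≤ 4 * K * δ * ‖t‖ := by
  let σ : Alg M →⋆ₐ[ℂ] (H →L[ℂ] H) := M.toStarSubalgebra.subtype
  have sa : ∀ t' ∈ N.commutant, IsSelfAdjoint t' →
      ∃ s ∈ M.commutant, ‖t' - s‖ ≤ K * (2 * δ * ‖t'‖) := fun t' ht' hts => by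
    obtain ⟨s, -, hs, hn⟩ := hK (Alg M) H σ t' (2 * δ * ‖t'‖) hts (by positivity) fun x => by
      obtain ⟨y, hy, hxy⟩ := hMN x.1 x.2
      have c := VonNeumannAlgebra.mem_commutant_iff.1 ht' y hy
      show ‖t' * x.1 - x.1 * t'‖ ≤ _
      rw [show t' * x.1 - x.1 * t' = t' * (x.1 - y) - (x.1 - y) * t' by
        rw [mul_sub, sub_mul, c]; abel]
      refine (norm_sub_le _ _).trans ((add_le_add (norm_mul_le _ _) (norm_mul_le _ _)).trans ?_)
      have := mul_le_mul_of_nonneg_left hxy (norm_nonneg t')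
      have e : ‖x‖ = ‖x.1‖ := rfl
      rw [e]
      linarith
    exact ⟨s, VonNeumannAlgebra.mem_commutant_iff.2 fun x hx => (hs ⟨x, hx⟩).symm, hn⟩
  have hb : ∀ (c : ℂ), ‖c‖ = 1 → ‖(2⁻¹ : ℂ) • (c • t + star (c • t))‖ ≤ ‖t‖ := fun c hc => by
    rw [norm_smul, show ‖(2⁻¹ : ℂ)‖ = 2⁻¹ by norm_num]
    have := norm_add_le (c • t) (star (c • t))
    rw [norm_star, norm_smul, hc, one_mul] at this
    linarith
  have hmem : ∀ c : ℂ, (2⁻¹ : ℂ) • (c • t + star (c • t)) ∈ N.commutant := fun c =>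
    N.commutant.toStarSubalgebra.smul_mem (add_mem (N.commutant.toStarSubalgebra.smul_mem ht c)
      (star_mem (N.commutant.toStarSubalgebra.smul_mem ht c))) _
  have hself : ∀ c : ℂ, IsSelfAdjoint ((2⁻¹ : ℂ) • (c • t + star (c • t))) := fun c => by
    rw [isSelfAdjoint_iff]
    simp [star_smul, add_comm]
  obtain ⟨s1, hs1, n1⟩ := sa _ (hmem 1) (hself 1)
  obtain ⟨s2, hs2, n2⟩ := sa _ (hmem (-Complex.I)) (hself (-Complex.I))
  refine ⟨s1 + Complex.I • s2, add_mem hs1 (M.commutant.toStarSubalgebra.smul_mem hs2 _), ?_⟩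
  have e : t - (s1 + Complex.I • s2) = ((2⁻¹ : ℂ) • ((1 : ℂ) • t + star ((1 : ℂ) • t)) - s1) +
      Complex.I • ((2⁻¹ : ℂ) • (-Complex.I • t + star (-Complex.I • t)) - s2) := by
    rw [star_smul, star_smul]
    simp only [Complex.star_def, map_one, map_neg, Complex.conj_I, neg_neg]
    match_scalars <;> simp [mul_comm Complex.I] <;> ring_nf <;>
      simp [Complex.I_sq] <;> ring
  rw [e]
  refine (norm_add_le _ _).trans ?_
  rw [norm_smul, Complex.norm_I, one_mul]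
  have b1 := hb 1 norm_one
  have b2 := hb (-Complex.I) (by rw [norm_neg, Complex.norm_I])
  have := mul_le_mul_of_nonneg_left b1 (show (0 : ℝ) ≤ K * (2 * δ) by positivity)
  have := mul_le_mul_of_nonneg_left b2 (show (0 : ℝ) ≤ K * (2 * δ) by positivity)
  linarith

end Vale.Agent.P096.Linear
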