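import Vale.Agent.P096.Iface
import Vale.Agent.P096.Linear.Spatial
import Vale.Agent.P082.Every.Glue
import Vale.Agent.P082.Every.A.Main
import Vale.Agent.P082.Every.B.Main
import Vale.Agent.P082.Every.C2.Main
import Vale.Agent.P082.Every.D.Main
import Vale.Agent.P104.Final

/-!
# P096: a linear map near the identity gives a unitary near one
-/

namespace Vale.Agent.P096.Linear

open Vale.Agent.P082 (Alg Vanishes)

universe u

/-- Primitives with one bound for every algebra, in degrees one and two. -/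
theorem exists_primBound :
    ∃ K : ℝ, 0 ≤ K ∧
      ∀ (H : Type u) [NormedAddCommGroup H] [InnerProductSpace ℂ H] [CompleteSpace H]
        (M : VonNeumannAlgebra H), PrimBound M 1 K ∧ PrimBound M 2 K := by
  open Vale.Agent.P082.Every in
  have hV : ∀ (H : Type u) [NormedAddCommGroup H] [InnerProductSpace ℂ H] [CompleteSpace H]
      (M : VonNeumannAlgebra H) (n : ℕ), Vanishes M n :=
    Glue.stmtEvery_of A.stmtA B.stmtB C2.stmtC2 D.stmtD
  obtain ⟨K1, h10, h1⟩ := exists_uniform_primitive.{u} 1 fun H _ _ _ M => hV H M 1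
  obtain ⟨K2, h20, h2⟩ := exists_uniform_primitive.{u} 2 fun H _ _ _ M => hV H M 2
  refine ⟨max K1 K2, h10.trans (le_max_left _ _), fun H _ _ _ M => ⟨fun f hf => ?_, fun f hf => ?_⟩⟩
  · obtain ⟨g, hg, hn⟩ := h1 H M f hf
    exact ⟨g, hg, hn.trans (mul_le_mul_of_nonneg_right (le_max_left _ _) (norm_nonneg f))⟩
  · obtain ⟨g, hg, hn⟩ := h2 H M f hf
    exact ⟨g, hg, hn.trans (mul_le_mul_of_nonneg_right (le_max_right _ _) (norm_nonneg f))⟩

/-- The distance to the commutant of a representation, for every algebra. -/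
theorem stmtDistRep : Vale.Agent.P104.Iface.StmtDistRep.{u, u} :=
  open Vale.Agent.P104 in
  DistRep.stmtDistRep (Bound.stmtBound_of PropInf.stmtPropInf
    (TypeII.stmtTypeII (Core.stmtCore (Witness.stmtCoreUnitary (Val.stmtVal Mart.stmtMart))))
    FinI.stmtFinI)

variable {H : Type u} [NormedAddCommGroup H] [InnerProductSpace ℂ H] [CompleteSpace H]
variable {M N : VonNeumannAlgebra H}

/-- A ball inclusion holds at every norm. -/
theorem exists_near_of_ball {ε : ℝ} (h : BallNear M N ε) {x : H →L[ℂ] H} (hx : x ∈ M) :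
    ∃ y ∈ N, ‖y‖ ≤ ‖x‖ ∧ ‖x - y‖ ≤ ε * ‖x‖ := by
  by_cases h0 : ‖x‖ = 0
  · exact ⟨0, zero_mem N, by simp [h0], by simp [norm_eq_zero.1 h0]⟩
  have e : ‖((‖x‖⁻¹ : ℝ) : ℂ)‖ = ‖x‖⁻¹ := by simp
  obtain ⟨y, hy, hy1, hxy⟩ := h _ (M.toStarSubalgebra.smul_mem hx ((‖x‖⁻¹ : ℝ) : ℂ))
    (by rw [norm_smul, e, inv_mul_cancel₀ h0])
  refine ⟨(‖x‖ : ℂ) • y, N.toStarSubalgebra.smul_mem hy _, ?_, ?_⟩
  · rw [norm_smul, Complex.norm_real, norm_norm]
    exact mul_le_of_le_one_right (norm_nonneg _) hy1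
  · have e2 : x - (‖x‖ : ℂ) • y = (‖x‖ : ℂ) • (((‖x‖⁻¹ : ℝ) : ℂ) • x - y) := by
      rw [smul_sub, smul_smul, ← Complex.ofReal_mul, mul_inv_cancel₀ h0, Complex.ofReal_one,
        one_smul]
    rw [e2, norm_smul, Complex.norm_real, norm_norm, mul_comm ε]
    exact mul_le_mul_of_nonneg_left hxy (norm_nonneg _)

/-- B: a linear map near the identity gives a unitary near one. -/
theorem stmtB : Iface.StmtB.{u} := by
  obtain ⟨K, hK, hP⟩ := exists_primBound.{u}
  obtain ⟨D, hD, hR⟩ := stmtDistRep.{u}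
  have hG : 0 ≤ gConst K := by unfold gConst; positivity
  have hS : 0 ≤ stepConst K := by unfold stepConst; positivity
  set c := 1 + 16 * gConst K + stepConst K + 16 * gConst K * D + D with hc
  have hc1 : 1 ≤ c := by nlinarith
  refine ⟨13 * (D * (1 + 16 * gConst K)), 1 / (8 * c), by positivity, by positivity, ?_⟩
  intro H _ _ _ M N η hη hη0 hN hL
  obtain ⟨L, hL⟩ := hL
  have hη8 : c * η ≤ 1 / 8 := by
    have := mul_le_mul_of_nonneg_left hη0 (zero_le_one.trans hc1)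
    refine this.trans_eq ?_
    field_simp
  have n1 : 0 ≤ gConst K * η := mul_nonneg hG hη
  have n2 : 0 ≤ stepConst K * η := mul_nonneg hS hη
  have n3 : 0 ≤ gConst K * D * η := mul_nonneg (mul_nonneg hG hD) hη
  have n4 : 0 ≤ D * η := mul_nonneg hD hη
  let T : Alg M →L[ℂ] Alg N := L.mkContinuous (1 + η) fun x => by
    refine (norm_le_norm_add_norm_sub' (L x : H →L[ℂ] H) (x : H →L[ℂ] H)).trans ?_
    rw [add_mul, one_mul]
    exact add_le_add le_rfl (hL x)
  obtain ⟨θ, hs, hm, hn, hsur⟩ := exists_mul_near hK (hP H M).1 (hP H M).2 (L := T) hη hL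
    (γ := η) (by rw [hc] at hη8; linarith) (fun y => by
      obtain ⟨x, hx, -, hxy⟩ := exists_near_of_ball hN.2 y.2
      exact ⟨⟨x, hx⟩, (norm_sub_rev _ _).trans_le hxy⟩)
    (by rw [hc] at hη8; linarith)
  obtain ⟨u, hu, hu1, hconj⟩ := exists_unitary hD hR hn (by positivity)
    (by rw [hc] at hη8; linarith) hs hm hsur (by rw [hc] at hη8; linarith)
  refine ⟨u, hu, hu1.trans_eq (by ring), fun x hx => (hconj _).2 ⟨x, hx, rfl⟩, fun y hy => ?_⟩
  obtain ⟨x, hx, rfl⟩ := (hconj y).1 hy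
  have e : star u * (u * x * star u) * u = x := by
    rw [mul_assoc, mul_assoc, hu.1, mul_one, ← mul_assoc, hu.1, one_mul]
  rwa [e]

/-- Close algebras, one of which is the range of a bounded projection from a space containing
the other, are conjugate by a unitary near one. -/
theorem exists_conj_of_projection (c ε : ℝ) (hε : 0 < ε) :
    ∃ δ : ℝ, 0 < δ ∧
      ∀ (H : Type u) [NormedAddCommGroup H] [InnerProductSpace ℂ H] [CompleteSpace H]
        (M N : VonNeumannAlgebra H) (V : Submodule ℂ (H →L[ℂ] H))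
        (P : V →ₗ[ℂ] (H →L[ℂ] H)), Near M N δ → (∀ x ∈ M, x ∈ V) → (∀ y ∈ N, y ∈ V) →
        (∀ v, P v ∈ N) → (∀ v : V, (v : H →L[ℂ] H) ∈ N → P v = v) →
        (∀ v, ‖P v‖ ≤ c * ‖(v : H →L[ℂ] H)‖) →
        ∃ u ∈ unitary (H →L[ℂ] H), ‖u - 1‖ < ε ∧ Conj u M N := by
  obtain ⟨C, η₀, hC, hη₀, hB⟩ := stmtB.{u}
  set k := |c| + 2 with hk
  have hk0 : 0 < k := by positivity
  refine ⟨min η₀ (ε / (C + 1)) / k, by positivity, ?_⟩
  intro H _ _ _ M N V P hN hMV hNV hPN hfix hP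
  set δ := min η₀ (ε / (C + 1)) / k
  have hδ0 : 0 ≤ δ := by positivity
  have hkδ : k * δ = min η₀ (ε / (C + 1)) := mul_div_cancel₀ _ hk0.ne'
  have hδ : δ ≤ k * δ := le_mul_of_one_le_left hδ0 (by rw [hk]; linarith [abs_nonneg c])
  let L : Alg M →ₗ[ℂ] Alg N :=
    { toFun := fun x => ⟨P ⟨x.1, hMV _ x.2⟩, hPN _⟩
      map_add' := fun x y => Subtype.ext (map_add P ⟨x.1, hMV _ x.2⟩ ⟨y.1, hMV _ y.2⟩)
      map_smul' := fun a x => Subtype.ext (map_smul P a ⟨x.1, hMV _ x.2⟩) }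
  have hL : ∀ x : Alg M, ‖(L x : H →L[ℂ] H) - (x : H →L[ℂ] H)‖ ≤ k * δ * ‖x‖ := fun x => by
    obtain ⟨y, hy, -, hxy⟩ := exists_near_of_ball hN.1 x.2
    have e : (L x : H →L[ℂ] H) - (x : H →L[ℂ] H) =
        P (⟨x.1, hMV _ x.2⟩ - ⟨y, hNV _ hy⟩) + (y - x.1) := by
      rw [map_sub, hfix ⟨y, hNV _ hy⟩ hy]
      show P _ - (x : H →L[ℂ] H) = _
      abel
    rw [e]
    refine (norm_add_le _ _).trans ((add_le_add (hP _) (norm_sub_rev y x.1).le).trans ?_)
    show c * ‖x.1 - y‖ + ‖x.1 - y‖ ≤ _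
    have h1 := mul_le_mul_of_nonneg_left hxy (show 0 ≤ |c| + 1 by positivity)
    have h2 := mul_le_mul_of_nonneg_right (le_abs_self c) (norm_nonneg (x.1 - y))
    have h3 : 0 ≤ δ * ‖x.1‖ := mul_nonneg hδ0 (norm_nonneg _)
    have e' : ‖x‖ = ‖x.1‖ := rfl
    rw [e', hk]
    linarith
  have mono : ∀ {A B : VonNeumannAlgebra H}, BallNear A B δ → BallNear A B (k * δ) :=
    fun h x hx hx1 => (h x hx hx1).imp fun y hy => ⟨hy.1, hy.2.1, hy.2.2.trans hδ⟩
  obtain ⟨u, hu, hu1, hconj⟩ := hB H M N (k * δ) (by positivity) (hkδ ▸ min_le_left _ _)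
    ⟨mono hN.1, mono hN.2⟩ ⟨L, hL⟩
  refine ⟨u, hu, hu1.trans_lt ?_, hconj⟩
  rw [hkδ]
  refine (mul_le_mul_of_nonneg_left (min_le_right _ _) hC).trans_lt ?_
  rw [mul_div, div_lt_iff₀ (by linarith)]
  linarith [mul_comm C ε]

/-- Close algebras have close commutants. -/
theorem exists_near_commutant :
    ∃ K : ℝ, 0 ≤ K ∧
      ∀ (H : Type u) [NormedAddCommGroup H] [InnerProductSpace ℂ H] [CompleteSpace H]
        (M N : VonNeumannAlgebra H) (δ : ℝ), 0 ≤ δ → Near M N δ →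
        Near M.commutant N.commutant (K * δ) := by
  obtain ⟨D, hD, hR⟩ := stmtDistRep.{u}
  refine ⟨8 * D, by positivity, fun H _ _ _ M N δ hδ hN => ?_⟩
  have side : ∀ {A B : VonNeumannAlgebra H}, BallNear A B δ →
      BallNear B.commutant A.commutant (8 * D * δ) := by
    intro A B h t ht ht1
    obtain ⟨s, hs, hts⟩ := exists_commutant_near hD hR hδ
      (fun x hx => (exists_near_of_ball h hx).imp fun y hy => ⟨hy.1, hy.2.2⟩) ht
    have e : ‖t - s‖ ≤ 4 * D * δ :=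
      hts.trans (mul_le_of_le_one_right (by positivity) ht1)
    have hs1 : ‖s‖ ≤ 1 + 4 * D * δ :=
      (norm_le_norm_add_norm_sub _ _).trans (add_le_add ht1 e)
    set a := (1 + 4 * D * δ)⁻¹
    have hb0 : 0 ≤ 4 * D * δ := by positivity
    have ha0 : 0 ≤ a := by positivity
    have ha1 : a ≤ 1 := inv_le_one_of_one_le₀ (by linarith)
    refine ⟨(a : ℂ) • s, A.commutant.toStarSubalgebra.smul_mem hs _, ?_, ?_⟩
    · rw [norm_smul, Complex.norm_real, Real.norm_eq_abs, abs_of_nonneg ha0]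
      refine (mul_le_mul_of_nonneg_left hs1 ha0).trans_eq ?_
      exact inv_mul_cancel₀ (by linarith)
    · have e1 : t - (a : ℂ) • s = (t - s) + ((1 - a : ℝ) : ℂ) • s := by
        push_cast
        module
      rw [e1]
      refine (norm_add_le _ _).trans ?_
      rw [norm_smul, Complex.norm_real, Real.norm_eq_abs, abs_of_nonneg (by linarith)]
      have h2 : (1 - a) * (1 + 4 * D * δ) = 4 * D * δ := by
        have := inv_mul_cancel₀ (show (1 + 4 * D * δ) ≠ 0 by linarith)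
        linear_combination -this
      have := mul_le_mul_of_nonneg_left hs1 (show 0 ≤ 1 - a by linarith)
      linarith
  exact ⟨side hN.2, side hN.1⟩

end Vale.Agent.P096.Linear
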