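import Vale.Agent.P096.Iface

/-!
# P096: vocabulary for the statement of the projection criterion
-/

namespace Vale.Agent.P096.Linear

universe u

variable {H : Type u} [NormedAddCommGroup H] [InnerProductSpace ℂ H] [CompleteSpace H]

/-- `u x u*`. -/
noncomputable def conjBy (u x : H →L[ℂ] H) : H →L[ℂ] H := u * x * star u

/-- `u M u* ⊆ N`. -/
def Maps (u : H →L[ℂ] H) (M N : VonNeumannAlgebra H) : Prop := ∀ x ∈ M, conjBy u x ∈ N

/-- `‖u - 1‖ < ε`. -/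
def NearOne (ε : ℝ) (u : H →L[ℂ] H) : Prop := ‖u - 1‖ < ε

/-- A unitary nearer than `ε` to one carries `M` onto `N`. -/
def ConjWithin (ε : ℝ) (M N : VonNeumannAlgebra H) : Prop :=
  ∃ u ∈ unitary (H →L[ℂ] H), NearOne ε u ∧ Maps u M N ∧ Maps (star u) N M

/-- `V` is closed under sums. -/
def AddClosed (V : Set (H →L[ℂ] H)) : Prop := ∀ x ∈ V, ∀ y ∈ V, x + y ∈ V

/-- `V` is closed under scalars. -/
def SmulClosed (V : Set (H →L[ℂ] H)) : Prop := ∀ (a : ℂ), ∀ x ∈ V, a • x ∈ V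

/-- `P (x + y) = P x + P y`. -/
def AddsAt (P : (H →L[ℂ] H) → H →L[ℂ] H) (x y : H →L[ℂ] H) : Prop := P (x + y) = P x + P y

/-- `P` is additive on `V`. -/
def AddMapOn (V : Set (H →L[ℂ] H)) (P : (H →L[ℂ] H) → H →L[ℂ] H) : Prop :=
  ∀ x ∈ V, ∀ y ∈ V, AddsAt P x y

/-- `P` is homogeneous on `V`. -/
def SmulMapOn (V : Set (H →L[ℂ] H)) (P : (H →L[ℂ] H) → H →L[ℂ] H) : Prop :=
  ∀ (a : ℂ), ∀ x ∈ V, P (a • x) = a • P x

/-- `P` maps `V` into `N` with bound `c`. -/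
def BoundedInto (c : ℝ) (N : VonNeumannAlgebra H) (V : Set (H →L[ℂ] H))
    (P : (H →L[ℂ] H) → H →L[ℂ] H) : Prop :=
  ∀ x ∈ V, P x ∈ N ∧ ‖P x‖ ≤ c * ‖x‖

/-- `V` contains `M` and `N`, and `P` fixes `N`. -/
def FixesRange (M N : VonNeumannAlgebra H) (V : Set (H →L[ℂ] H))
    (P : (H →L[ℂ] H) → H →L[ℂ] H) : Prop :=
  (∀ x ∈ M, x ∈ V) ∧ ∀ y ∈ N, y ∈ V ∧ P y = y

/-- `N` is the range of a linear projection bounded by `c` on a linear space containing `M`. -/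
def HasProjection (c : ℝ) (M N : VonNeumannAlgebra H) : Prop :=
  ∃ (V : Set (H →L[ℂ] H)) (P : (H →L[ℂ] H) → H →L[ℂ] H),
    AddClosed V ∧ SmulClosed V ∧ AddMapOn V P ∧ SmulMapOn V P ∧ BoundedInto c N V P ∧
      FixesRange M N V P

end Vale.Agent.P096.Linear
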