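import Vale.Agent.P082.Core
import Vale.Agent.P078.General.Witness

/-!
# P096: Hilbert sums of von Neumann algebras; uniform bounds on primitives of cocycles
-/

namespace Vale.Agent.P096.Linear

open scoped InnerProductSpace ENNReal
open Vale.Agent.P078.General (vnOf mem_vnOf)
open Vale.Agent.P082 (Alg Cochain hochDiff Vanishes)

universe u v

variable {ι : Type v} {H : ι → Type u} [∀ i, NormedAddCommGroup (H i)]
  [∀ i, InnerProductSpace ℂ (H i)] [∀ i, CompleteSpace (H i)]

/-- A bounded family of operators, acting coordinatewise. -/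
noncomputable def diag (T : ∀ i, H i →L[ℂ] H i) (C : ℝ) (hT : ∀ i, ‖T i‖ ≤ C) :
    lp H 2 →L[ℂ] lp H 2 :=
  LinearMap.mkContinuous
    { toFun := fun ξ => ⟨fun i => T i (ξ i),
        Memℓp.mono ((lp.memℓp ξ).norm.const_mul C)
          fun i => ((T i).le_opNorm _).trans
            (mul_le_mul_of_nonneg_right (hT i) (norm_nonneg _))⟩
      map_add' := fun ξ η => by ext i; exact map_add (T i) _ _
      map_smul' := fun c ξ => by ext i; exact map_smul (T i) c _ }
    |C| fun ξ => by
      refine lp.norm_le_of_forall_sum_le (by norm_num) (by positivity) fun s => ?_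
      rw [Real.mul_rpow (abs_nonneg _) (norm_nonneg _)]
      refine le_trans ?_ (mul_le_mul_of_nonneg_left
        (lp.sum_rpow_le_norm_rpow (by norm_num) ξ s) (by positivity))
      rw [Finset.mul_sum]
      refine Finset.sum_le_sum fun i _ => ?_
      rw [← Real.mul_rpow (abs_nonneg _) (norm_nonneg _)]
      exact Real.rpow_le_rpow (norm_nonneg _) (((T i).le_opNorm _).trans
        (mul_le_mul_of_nonneg_right ((hT i).trans (le_abs_self C)) (norm_nonneg _))) (by norm_num)

omit [∀ i, CompleteSpace (H i)] in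
@[simp] theorem diag_apply (T : ∀ i, H i →L[ℂ] H i) (C : ℝ) (hT : ∀ i, ‖T i‖ ≤ C) (ξ : lp H 2)
    (i : ι) : diag T C hT ξ i = T i (ξ i) := rfl

omit [∀ i, CompleteSpace (H i)] in
theorem norm_diag_le (T : ∀ i, H i →L[ℂ] H i) {C : ℝ} (hC : 0 ≤ C) (hT : ∀ i, ‖T i‖ ≤ C) :
    ‖diag T C hT‖ ≤ C :=
  (LinearMap.mkContinuous_norm_le _ (abs_nonneg C) _).trans (abs_of_nonneg hC).le

variable [DecidableEq ι]

/-- The inclusion of a coordinate. -/
noncomputable def inj (i : ι) : H i →L[ℂ] lp H 2 := lp.singleContinuousLinearMap ℂ H 2 i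

/-- The evaluation at a coordinate. -/
noncomputable def coord (i : ι) : lp H 2 →L[ℂ] H i := lp.evalCLM ℂ H 2 i

omit [∀ i, CompleteSpace (H i)] [DecidableEq ι] in
theorem coord_apply (i : ι) (ξ : lp H 2) : coord i ξ = ξ i := rfl

omit [∀ i, CompleteSpace (H i)] in
theorem coord_inj (i : ι) (a : H i) : coord i (inj i a) = a := by
  simp [coord_apply, inj]

omit [∀ i, CompleteSpace (H i)] in
theorem inj_apply_ne {i j : ι} (h : j ≠ i) (a : H i) : (inj i a : lp H 2) j = 0 := by
  simp [inj, lp.single_apply, Pi.single_eq_of_ne h]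

omit [∀ i, CompleteSpace (H i)] in
theorem norm_inj_apply (i : ι) (a : H i) : ‖inj i a‖ = ‖a‖ := by
  simp [inj, lp.norm_single]

omit [∀ i, CompleteSpace (H i)] [DecidableEq ι] in
theorem norm_coord_apply_le (i : ι) (ξ : lp H 2) : ‖coord i ξ‖ ≤ ‖ξ‖ :=
  lp.norm_apply_le_norm (by norm_num) ξ i

/-- An operator on one coordinate. -/
noncomputable def block (i : ι) (z : H i →L[ℂ] H i) : lp H 2 →L[ℂ] lp H 2 :=
  (inj i).comp (z.comp (coord i))

/-- The compression to a coordinate. -/
noncomputable def comp (i : ι) (y : lp H 2 →L[ℂ] lp H 2) : H i →L[ℂ] H i :=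
  (coord i).comp (y.comp (inj i))

omit [∀ i, CompleteSpace (H i)] in
theorem comp_block (i : ι) (z : H i →L[ℂ] H i) : comp i (block i z) = z :=
  ContinuousLinearMap.ext fun a => by simp [comp, block, coord_inj]

theorem norm_block_le (i : ι) (z : H i →L[ℂ] H i) : ‖block i z‖ ≤ ‖z‖ :=
  ContinuousLinearMap.opNorm_le_bound _ (norm_nonneg _) fun ξ => by
    show ‖inj i (z (coord i ξ))‖ ≤ _
    rw [norm_inj_apply]
    exact (z.le_opNorm _).trans
      (mul_le_mul_of_nonneg_left (norm_coord_apply_le i ξ) (norm_nonneg _))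

theorem norm_comp_le (i : ι) (y : lp H 2 →L[ℂ] lp H 2) : ‖comp i y‖ ≤ ‖y‖ :=
  ContinuousLinearMap.opNorm_le_bound _ (norm_nonneg _) fun a => by
    show ‖coord i (y (inj i a))‖ ≤ _
    exact (norm_coord_apply_le i _).trans ((y.le_opNorm _).trans_eq (by rw [norm_inj_apply]))

theorem star_block (i : ι) (z : H i →L[ℂ] H i) : star (block i z) = block i (star z) := by
  rw [ContinuousLinearMap.star_eq_adjoint]
  refine ((ContinuousLinearMap.eq_adjoint_iff _ _).2 fun ξ η => ?_).symm
  show ⟪inj i (star z (coord i ξ)), η⟫_ℂ = ⟪ξ, inj i (z (coord i η))⟫_ℂ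
  simp only [inj, lp.singleContinuousLinearMap_apply, lp.inner_single_left, lp.inner_single_right,
    coord_apply, ContinuousLinearMap.star_eq_adjoint, ContinuousLinearMap.adjoint_inner_left]

variable (M : ∀ i, VonNeumannAlgebra (H i))

/-- The Hilbert sum of von Neumann algebras. -/
noncomputable def vnSum : VonNeumannAlgebra (lp H 2) :=
  vnOf {s | ∃ i, ∃ z ∈ (M i).commutant, s = block i z}

variable {M}

theorem mem_vnSum {y : lp H 2 →L[ℂ] lp H 2} :
    y ∈ vnSum M ↔ ∀ i, ∀ z ∈ (M i).commutant, block i z * y = y * block i z := by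
  refine ⟨fun h i z hz => mem_vnOf.1 h _ (Or.inl ⟨i, z, hz, rfl⟩), fun h => mem_vnOf.2 ?_⟩
  rintro s (⟨i, z, hz, rfl⟩ | hs)
  · exact h i z hz
  · obtain ⟨i, z, hz, e⟩ := hs
    rw [← star_star s, e, star_block]
    exact h i _ (star_mem hz)

theorem coord_mem_apply {y : lp H 2 →L[ℂ] lp H 2} (hy : y ∈ vnSum M) (i : ι) (ξ : lp H 2) :
    coord i (y ξ) = comp i y (coord i ξ) := by
  have h := congrArg (fun F : lp H 2 →L[ℂ] lp H 2 => coord i (F ξ))
    (mem_vnSum.1 hy i 1 (one_mem _))
  simp only [mul_apply_eq_comp, block, ContinuousLinearMap.comp_apply,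
    one_apply_eq_self, coord_inj] at h
  exact h

theorem comp_mem {y : lp H 2 →L[ℂ] lp H 2} (hy : y ∈ vnSum M) (i : ι) : comp i y ∈ M i := by
  rw [← VonNeumannAlgebra.commutant_commutant (M i)]
  refine VonNeumannAlgebra.mem_commutant_iff.2 fun z hz => ContinuousLinearMap.ext fun a => ?_
  have h := congrArg (fun F : lp H 2 →L[ℂ] lp H 2 => coord i (F (inj i a)))
    (mem_vnSum.1 hy i z hz)
  simp only [mul_apply_eq_comp, block, ContinuousLinearMap.comp_apply, coord_inj] at h
  exact h

theorem comp_one (i : ι) : comp i (1 : lp H 2 →L[ℂ] lp H 2) = 1 :=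
  ContinuousLinearMap.ext fun a => coord_inj i a

theorem comp_mul {y w : lp H 2 →L[ℂ] lp H 2} (hy : y ∈ vnSum M) (i : ι) :
    comp i (y * w) = comp i y * comp i w :=
  ContinuousLinearMap.ext fun a => coord_mem_apply hy i _

theorem ext_of_comp {y w : lp H 2 →L[ℂ] lp H 2} (hy : y ∈ vnSum M) (hw : w ∈ vnSum M)
    (h : ∀ i, comp i y = comp i w) : y = w :=
  ContinuousLinearMap.ext fun ξ => lp.ext <| funext fun i => by
    rw [← coord_apply, ← coord_apply, coord_mem_apply hy, coord_mem_apply hw, h]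

theorem diag_mem {T : ∀ i, H i →L[ℂ] H i} {C : ℝ} (hT : ∀ i, ‖T i‖ ≤ C) (hM : ∀ i, T i ∈ M i) :
    diag T C hT ∈ vnSum M := by
  refine mem_vnSum.2 fun i z hz => ContinuousLinearMap.ext fun ξ => lp.ext <| funext fun j => ?_
  simp only [mul_apply_eq_comp, block, ContinuousLinearMap.comp_apply, diag_apply]
  by_cases hj : j = i
  · subst hj
    rw [← coord_apply, coord_inj, ← coord_apply j (inj j _), coord_inj, coord_apply, diag_apply,
      ← mul_apply_eq_comp, ← mul_apply_eq_comp,
      VonNeumannAlgebra.mem_commutant_iff.1 hz _ (hM j), coord_apply]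
  · rw [inj_apply_ne hj, inj_apply_ne hj, map_zero]

theorem comp_diag {T : ∀ i, H i →L[ℂ] H i} {C : ℝ} (hT : ∀ i, ‖T i‖ ≤ C) (i : ι) :
    comp i (diag T C hT) = T i :=
  ContinuousLinearMap.ext fun a => by
    show diag T C hT (inj i a) i = T i a
    rw [diag_apply, ← coord_apply, coord_inj]

theorem block_mem {i : ι} {x : H i →L[ℂ] H i} (hx : x ∈ M i) : block i x ∈ vnSum M := by
  refine mem_vnSum.2 fun k z hz => ContinuousLinearMap.ext fun ξ => ?_
  simp only [mul_apply_eq_comp, block, ContinuousLinearMap.comp_apply, coord_apply]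
  by_cases hk : k = i
  · subst hk
    rw [← coord_apply, coord_inj, ← coord_apply k (inj k _), coord_inj]
    exact congrArg (inj k)
      (congrArg (fun F : H k →L[ℂ] H k => F (coord k ξ))
        (VonNeumannAlgebra.mem_commutant_iff.1 hz _ hx)).symm
  · rw [inj_apply_ne hk, inj_apply_ne (Ne.symm hk), map_zero, map_zero, map_zero, map_zero]

/-- The projection onto a summand. -/
noncomputable def pr (M : ∀ i, VonNeumannAlgebra (H i)) (i : ι) :
    Alg (vnSum M) →L[ℂ] Alg (M i) :=
  LinearMap.mkContinuous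
    { toFun := fun y => ⟨comp i y.1, comp_mem y.2 i⟩
      map_add' := fun y w => Subtype.ext (ContinuousLinearMap.ext fun a => by
        simp [comp])
      map_smul' := fun c y => Subtype.ext (ContinuousLinearMap.ext fun a => by
        simp [comp]) }
    1 fun y => (norm_comp_le i y.1).trans_eq (one_mul ‖y.1‖).symm

/-- The inclusion of a summand. -/
noncomputable def incl (M : ∀ i, VonNeumannAlgebra (H i)) (i : ι) :
    Alg (M i) →L[ℂ] Alg (vnSum M) :=
  LinearMap.mkContinuous
    { toFun := fun x => ⟨block i x.1, block_mem x.2⟩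
      map_add' := fun y w => Subtype.ext (ContinuousLinearMap.ext fun a => by
        simp [block])
      map_smul' := fun c y => Subtype.ext (ContinuousLinearMap.ext fun a => by
        simp [block]) }
    1 fun x => (norm_block_le i x.1).trans_eq (one_mul ‖x.1‖).symm

theorem pr_incl (i : ι) (x : Alg (M i)) : pr M i (incl M i x) = x :=
  Subtype.ext (comp_block i x.1)

theorem pr_mul (i : ι) (y w : Alg (vnSum M)) : pr M i (y * w) = pr M i y * pr M i w :=
  Subtype.ext (comp_mul y.2 i)

theorem pr_ext {y w : Alg (vnSum M)} (h : ∀ i, pr M i y = pr M i w) : y = w :=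
  Subtype.ext (ext_of_comp y.2 w.2 fun i => congrArg Subtype.val (h i))

theorem norm_family_le {k : ℕ} (f : ∀ i, Cochain (M i) k) (hf : ∀ i, ‖f i‖ ≤ 1)
    (a : Fin k → Alg (vnSum M)) (i : ι) :
    ‖((f i fun j => pr M i (a j) : Alg (M i)) : H i →L[ℂ] H i)‖ ≤ ∏ j, ‖a j‖ := by
  refine le_trans ((f i).le_opNorm _) ?_
  refine le_trans (mul_le_of_le_one_left (Finset.prod_nonneg fun j _ => norm_nonneg _) (hf i)) ?_
  exact Finset.prod_le_prod (fun j _ => norm_nonneg _) fun j _ => norm_comp_le i (a j).1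

/-- The value of a family of cochains. -/
noncomputable def sumAt {k : ℕ} (f : ∀ i, Cochain (M i) k) (hf : ∀ i, ‖f i‖ ≤ 1)
    (a : Fin k → Alg (vnSum M)) : Alg (vnSum M) :=
  ⟨diag (fun i => ((f i fun j => pr M i (a j) : Alg (M i)) : H i →L[ℂ] H i)) (∏ j, ‖a j‖)
    (norm_family_le f hf a), diag_mem _ fun i => (f i _).2⟩

theorem pr_sumAt {k : ℕ} (f : ∀ i, Cochain (M i) k) (hf : ∀ i, ‖f i‖ ≤ 1)
    (a : Fin k → Alg (vnSum M)) (i : ι) :
    pr M i (sumAt f hf a) = f i fun j => pr M i (a j) :=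
  Subtype.ext (comp_diag (norm_family_le f hf a) i)

theorem pr_update {k : ℕ} [DecidableEq (Fin k)] (a : Fin k → Alg (vnSum M)) (j : Fin k)
    (z : Alg (vnSum M)) (i : ι) :
    (fun l => pr M i (Function.update a j z l)) =
      Function.update (fun l => pr M i (a l)) j (pr M i z) :=
  funext fun l => Function.apply_update (fun _ => pr M i) a j z l

theorem sumAt_update_add {k : ℕ} (f : ∀ i, Cochain (M i) k) (hf : ∀ i, ‖f i‖ ≤ 1)
    [DecidableEq (Fin k)] (a : Fin k → Alg (vnSum M)) (j : Fin k) (x y : Alg (vnSum M)) :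
    sumAt f hf (Function.update a j (x + y)) =
      sumAt f hf (Function.update a j x) + sumAt f hf (Function.update a j y) := by
  refine pr_ext fun i => ?_
  have h1 := pr_sumAt f hf (Function.update a j (x + y)) i
  have h2 := pr_sumAt f hf (Function.update a j x) i
  have h3 := pr_sumAt f hf (Function.update a j y) i
  rw [pr_update a j (x + y) i, (pr M i).map_add x y] at h1
  rw [pr_update a j x i] at h2
  rw [pr_update a j y i] at h3
  rw [(pr M i).map_add, h1, h2, h3]
  exact (f i).map_update_add _ _ _ _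

theorem sumAt_update_smul {k : ℕ} (f : ∀ i, Cochain (M i) k) (hf : ∀ i, ‖f i‖ ≤ 1)
    [DecidableEq (Fin k)] (a : Fin k → Alg (vnSum M)) (j : Fin k) (c : ℂ) (x : Alg (vnSum M)) :
    sumAt f hf (Function.update a j (c • x)) = c • sumAt f hf (Function.update a j x) := by
  refine pr_ext fun i => ?_
  have h1 := pr_sumAt f hf (Function.update a j (c • x)) i
  have h2 := pr_sumAt f hf (Function.update a j x) i
  rw [pr_update a j (c • x) i, (pr M i).map_smul c x] at h1
  rw [pr_update a j x i] at h2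
  rw [(pr M i).map_smul, h1, h2]
  exact (f i).map_update_smul _ _ _ _

/-- The family of cochains as a multilinear map. -/
noncomputable def sumMulti {k : ℕ} (f : ∀ i, Cochain (M i) k) (hf : ∀ i, ‖f i‖ ≤ 1) :
    MultilinearMap ℂ (fun _ : Fin k => Alg (vnSum M)) (Alg (vnSum M)) :=
  { toFun := sumAt f hf
    map_update_add' := sumAt_update_add f hf
    map_update_smul' := sumAt_update_smul f hf }

theorem norm_sumMulti_le {k : ℕ} (f : ∀ i, Cochain (M i) k) (hf : ∀ i, ‖f i‖ ≤ 1)
    (a : Fin k → Alg (vnSum M)) : ‖sumMulti f hf a‖ ≤ 1 * ∏ j, ‖a j‖ := by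
  rw [one_mul]
  exact norm_diag_le _ (Finset.prod_nonneg fun j _ => norm_nonneg _) (norm_family_le f hf a)

/-- A bounded family of cochains, coordinatewise. -/
noncomputable def sumCochain {k : ℕ} (f : ∀ i, Cochain (M i) k) (hf : ∀ i, ‖f i‖ ≤ 1) :
    Cochain (vnSum M) k :=
  (sumMulti f hf).mkContinuous 1 (norm_sumMulti_le f hf)

theorem pr_sumCochain {k : ℕ} (f : ∀ i, Cochain (M i) k) (hf : ∀ i, ‖f i‖ ≤ 1)
    (a : Fin k → Alg (vnSum M)) (i : ι) :
    pr M i (sumCochain f hf a) = f i fun j => pr M i (a j) :=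
  pr_sumAt f hf a i

omit [DecidableEq ι] [∀ i, CompleteSpace (H i)] in
theorem contract_map {A B : Type*} [Mul A] [Mul B] (φ : A → B) (hφ : ∀ x y, φ (x * y) = φ x * φ y)
    {k : ℕ} (j : Fin (k + 1)) (a : Fin (k + 1) → A) :
    (fun l => φ (Fin.contractNth j (· * ·) a l)) =
      Fin.contractNth j (· * ·) fun l => φ (a l) := by
  funext l
  simp only [Fin.contractNth]
  split_ifs <;> simp [hφ]

theorem pr_hochDiff {k : ℕ} (F : Cochain (vnSum M) k) (i : ι) (G : Cochain (M i) k)
    (a : Fin (k + 1) → Alg (vnSum M))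
    (h : ∀ b, pr M i (F b) = G fun j => pr M i (b j)) :
    pr M i (hochDiff F a) = hochDiff G fun j => pr M i (a j) := by
  simp only [hochDiff, map_add, map_sum, map_smul, pr_mul, h,
    contract_map (pr M i) (pr_mul i)]
  rfl

/-- Vanishing for all algebras gives primitives with one bound. -/
theorem exists_uniform_primitive (n : ℕ)
    (hV : ∀ (K : Type u) [NormedAddCommGroup K] [InnerProductSpace ℂ K] [CompleteSpace K]
      (M : VonNeumannAlgebra K), Vanishes M n) :
    ∃ C : ℝ, 0 ≤ C ∧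
      ∀ (K : Type u) [NormedAddCommGroup K] [InnerProductSpace ℂ K] [CompleteSpace K]
        (M : VonNeumannAlgebra K) (f : Cochain M (n + 1)), (∀ a, hochDiff f a = 0) →
        ∃ g : Cochain M n, (∀ a, f a = hochDiff g a) ∧ ‖g‖ ≤ C * ‖f‖ := by
  by_contra hcon
  push Not at hcon
  choose K i1 i2 i3 M f hf hbad using fun m : ℕ => hcon m m.cast_nonneg
  have h0 : ∀ m, ‖f m‖ ≠ 0 := fun m h => by
    obtain ⟨g, hg⟩ := hV (K m) (M m) (f m) (hf m)
    have hz : f m = 0 := norm_eq_zero.1 h
    have := hbad m 0 (fun a => by simp [hz, hochDiff])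
    simp [h] at this
  let f' : ∀ m, Cochain (M m) (n + 1) := fun m => ((‖f m‖⁻¹ : ℝ) : ℂ) • f m
  have hf' : ∀ m, ‖f' m‖ ≤ 1 := fun m => by
    rw [norm_smul, Complex.norm_real, norm_inv, norm_norm, inv_mul_cancel₀ (h0 m)]
  have hcoc : ∀ a, hochDiff (sumCochain f' hf') a = 0 := fun a => pr_ext fun m => by
    rw [pr_hochDiff _ m (f' m) a fun b => pr_sumCochain f' hf' b m, map_zero]
    have := hf m fun j => pr M m (a j)
    simp only [hochDiff, f', smul_apply, mul_smul_comm, smul_mul_assoc,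
      smul_comm ((-1 : ℂ) ^ _) (((‖f m‖⁻¹ : ℝ) : ℂ)), ← Finset.smul_sum, ← smul_add] at this ⊢
    rw [this, smul_zero]
  obtain ⟨g, hg⟩ := hV (lp K 2) (vnSum M) _ hcoc
  obtain ⟨m, hm⟩ := exists_nat_gt ‖g‖
  let g' : Cochain (M m) n :=
    (‖f m‖ : ℂ) • (pr M m).compContinuousMultilinearMap
      (g.compContinuousLinearMap fun _ => incl M m)
  have hgm : ∀ a, f m a = hochDiff g' a := fun a => by
    have h1 := congrArg (pr M m) (hg fun j => incl M m (a j))
    rw [pr_sumCochain] at h1
    simp only [pr_incl] at h1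
    have h2 : pr M m (hochDiff g fun j => incl M m (a j)) =
        hochDiff ((pr M m).compContinuousMultilinearMap
          (g.compContinuousLinearMap fun _ => incl M m)) a := by
      simp only [hochDiff, map_add, map_sum, map_smul, pr_mul, pr_incl,
        ContinuousLinearMap.compContinuousMultilinearMap_coe, Function.comp_apply,
        ContinuousMultilinearMap.compContinuousLinearMap_apply,
        contract_map (fun x => incl M m x) (fun x y => Subtype.ext (by
          show block m (x.1 * y.1) = block m x.1 * block m y.1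
          exact ContinuousLinearMap.ext fun ξ => by simp [block, coord_inj]))]
      rfl
    rw [h2] at h1
    have h3 := congrArg (fun z => (‖f m‖ : ℂ) • z) h1
    simp only [f', smul_apply, smul_smul, ← Complex.ofReal_mul, mul_inv_cancel₀ (h0 m),
      Complex.ofReal_one, one_smul] at h3
    rw [h3]
    simp only [hochDiff, g', smul_apply, mul_smul_comm, smul_mul_assoc,
      smul_comm ((-1 : ℂ) ^ _) ((‖f m‖ : ℂ)), ← Finset.smul_sum, ← smul_add]
  have hpr : ‖(pr M m).compContinuousMultilinearMap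
      (g.compContinuousLinearMap fun _ => incl M m)‖ ≤ ‖g‖ :=
    ContinuousMultilinearMap.opNorm_le_bound (norm_nonneg _) fun a =>
      (norm_comp_le m _).trans ((g.le_opNorm _).trans (mul_le_mul_of_nonneg_left
        (Finset.prod_le_prod (fun j _ => norm_nonneg _) fun j _ => norm_block_le m (a j).1)
        (norm_nonneg _)))
  have := hbad m g' hgm
  rw [norm_smul, Complex.norm_real, norm_norm, mul_comm (m : ℝ)] at this
  have h4 : ‖f m‖ * ‖(pr M m).compContinuousMultilinearMap
      (g.compContinuousLinearMap fun _ => incl M m)‖ ≤ ‖f m‖ * m :=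
    mul_le_mul_of_nonneg_left (hpr.trans hm.le) (norm_nonneg _)
  linarith

end Vale.Agent.P096.Linear
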